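import Vale.Agent.P012.Block

namespace Vale.Agent.P012

open Finset

/-- the number of subsets of size `< t` is at most `(b+1)^t` -/
theorem card_small_le {b : ℕ} (hb : 1 ≤ b) (t : ℕ) :
    (univ.filter (fun A : Finset (Fin b) => A.card < t)).card ≤ (b + 1) ^ t := by
  induction t with
  | zero => simp
  | succ t ih =>
    have h1 : (univ.filter (fun A : Finset (Fin b) => A.card < t + 1))
        ⊆ (univ.filter (fun A : Finset (Fin b) => A.card < t)) ∪ powersetCard t univ := by
      intro A hA
      rw [mem_filter] at hA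
      rw [mem_union, mem_filter, mem_powersetCard]
      rcases Nat.lt_succ_iff_lt_or_eq.mp hA.2 with h | h
      · exact Or.inl ⟨mem_univ _, h⟩
      · exact Or.inr ⟨subset_univ _, h⟩
    have h2 := (card_le_card h1).trans (card_union_le _ _)
    rw [card_powersetCard, card_univ, Fintype.card_fin] at h2
    have h3 : b.choose t ≤ b ^ t := Nat.choose_le_pow b t
    have h4 : b ^ t ≤ (b + 1) ^ t := Nat.pow_le_pow_left (by omega) t
    calc _ ≤ (b + 1) ^ t + b ^ t := by omega
      _ ≤ (b + 1) ^ t + b * (b + 1) ^ t := by nlinarith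
      _ = (b + 1) ^ (t + 1) := by ring

/-- pairs of subsets with small symmetric difference -/
theorem card_small_pairs_le {b : ℕ} (hb : 1 ≤ b) (t : ℕ) :
    (univ.filter (fun p : Finset (Fin b) × Finset (Fin b) => (symmDiff p.1 p.2).card < t)).card
      ≤ 2 ^ b * (b + 1) ^ t := by
  have h1 : (univ.filter
      (fun p : Finset (Fin b) × Finset (Fin b) => (symmDiff p.1 p.2).card < t)).card
      ≤ ((univ : Finset (Finset (Fin b))) ×ˢ
          (univ.filter (fun A : Finset (Fin b) => A.card < t))).card := by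
    apply card_le_card_of_injOn (fun p => (p.1, symmDiff p.1 p.2))
    · intro p hp
      rw [mem_coe, mem_filter] at hp
      rw [mem_coe, mem_product, mem_filter]
      exact ⟨mem_univ _, mem_univ _, hp.2⟩
    · rintro ⟨A, A'⟩ _ ⟨B, B'⟩ _ h
      simp only [Prod.mk.injEq] at h
      obtain ⟨h1, h2⟩ := h
      subst h1
      have := symmDiff_right_injective A h2
      rw [this]
  refine h1.trans ?_
  rw [card_product, card_univ, Fintype.card_finset, Fintype.card_fin]
  exact Nat.mul_le_mul_left _ (card_small_le hb t)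

theorem card_large_le {w b κ d g u : ℕ} (hz : ∀ k, k < 2 ^ w * (b + 1) → pr k ≤ 2 ^ (w + κ))
    (hd : 0 < d) (hu : d < 2 ^ (w * (u + 1))) {A A' : Finset (Fin b)}
    (hA : 2 * g + u ≤ (symmDiff A A').card) :
    (univ.filter (fun r : Fin b → Fin (2 ^ w) => xf w r d A ≡ xf w r d A' [MOD d])).card
      ≤ 2 * b ^ g * ((2 ^ ((w + κ) * g) / d + 1) * (2 ^ w) ^ (b - g)) := by
  classical
  set F := (2 ^ ((w + κ) * g) / d + 1) * (2 ^ w) ^ (b - g) with hF
  set S1 : Finset (Fin b) → Finset (Fin b → Fin (2 ^ w)) := fun B =>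
    univ.filter (fun r : Fin b → Fin (2 ^ w) => (∀ i ∈ B, ¬ P w r i ∣ d) ∧
      xf w r d A ≡ xf w r d A' [MOD d]) with hS1
  set S2 : Finset (Fin b) → Finset (Fin b → Fin (2 ^ w)) := fun B =>
    univ.filter (fun r : Fin b → Fin (2 ^ w) => (∀ i ∈ B, ¬ P w r i ∣ d) ∧
      xf w r d A' ≡ xf w r d A [MOD d]) with hS2
  have hsub : (univ.filter (fun r : Fin b → Fin (2 ^ w) => xf w r d A ≡ xf w r d A' [MOD d]))
      ⊆ ((powersetCard g (A \ A')).biUnion S1) ∪ ((powersetCard g (A' \ A)).biUnion S2) := by
    intro r hr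
    rw [mem_filter] at hr
    have hK := card_dvd_le r hd hu
    set K := univ.filter (fun i : Fin b => P w r i ∣ d) with hKdef
    have hKmem : ∀ i, i ∉ K → ¬ P w r i ∣ d := by
      intro i hi h
      apply hi
      rw [hKdef, mem_filter]
      exact ⟨mem_univ _, h⟩
    have h1 : (symmDiff A A').card ≤ ((A \ A') \ K).card + ((A' \ A) \ K).card + K.card := by
      have : symmDiff A A' ⊆ (((A \ A') \ K) ∪ ((A' \ A) \ K)) ∪ K := by
        intro i hi
        rw [mem_symmDiff] at hi
        rw [mem_union, mem_union, mem_sdiff, mem_sdiff, mem_sdiff, mem_sdiff]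
        by_cases hiK : i ∈ K
        · exact Or.inr hiK
        · rcases hi with hi | hi
          · exact Or.inl (Or.inl ⟨hi, hiK⟩)
          · exact Or.inl (Or.inr ⟨hi, hiK⟩)
      refine (card_le_card this).trans ?_
      refine (card_union_le _ _).trans ?_
      have := card_union_le ((A \ A') \ K) ((A' \ A) \ K)
      omega
    have h2 : g ≤ ((A \ A') \ K).card ∨ g ≤ ((A' \ A) \ K).card := by omega
    rw [mem_union]
    rcases h2 with h2 | h2
    · left
      obtain ⟨B, hB, hBc⟩ := exists_subset_card_eq h2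
      rw [mem_biUnion]
      refine ⟨B, ?_, ?_⟩
      · rw [mem_powersetCard]
        exact ⟨hB.trans sdiff_subset, hBc⟩
      · rw [hS1, mem_filter]
        refine ⟨mem_univ _, ?_, hr.2⟩
        intro i hi
        exact hKmem i (mem_sdiff.mp (hB hi)).2
    · right
      obtain ⟨B, hB, hBc⟩ := exists_subset_card_eq h2
      rw [mem_biUnion]
      refine ⟨B, ?_, ?_⟩
      · rw [mem_powersetCard]
        exact ⟨hB.trans sdiff_subset, hBc⟩
      · rw [hS2, mem_filter]
        refine ⟨mem_univ _, ?_, hr.2.symm⟩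
        intro i hi
        exact hKmem i (mem_sdiff.mp (hB hi)).2
  have hb1 : ((powersetCard g (A \ A')).biUnion S1).card ≤ b ^ g * F := by
    refine (card_biUnion_le_card_mul _ _ F ?_).trans ?_
    · intro B hB
      rw [mem_powersetCard] at hB
      exact card_fiber_le hz hd hB.1 hB.2
    · apply Nat.mul_le_mul_right
      rw [card_powersetCard]
      refine (Nat.choose_le_pow _ _).trans ?_
      apply Nat.pow_le_pow_left
      have := card_le_univ (A \ A')
      rwa [Fintype.card_fin] at this
  have hb2 : ((powersetCard g (A' \ A)).biUnion S2).card ≤ b ^ g * F := by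
    refine (card_biUnion_le_card_mul _ _ F ?_).trans ?_
    · intro B hB
      rw [mem_powersetCard] at hB
      exact card_fiber_le hz hd hB.1 hB.2
    · apply Nat.mul_le_mul_right
      rw [card_powersetCard]
      refine (Nat.choose_le_pow _ _).trans ?_
      apply Nat.pow_le_pow_left
      have := card_le_univ (A' \ A)
      rwa [Fintype.card_fin] at this
  calc _ ≤ (((powersetCard g (A \ A')).biUnion S1) ∪ ((powersetCard g (A' \ A)).biUnion S2)).card :=
        card_le_card hsub
    _ ≤ b ^ g * F + b ^ g * F := (card_union_le _ _).trans (Nat.add_le_add hb1 hb2)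
    _ = 2 * b ^ g * F := by ring

theorem sum_coll_le {w b κ d g u : ℕ} (hb : 1 ≤ b)
    (hz : ∀ k, k < 2 ^ w * (b + 1) → pr k ≤ 2 ^ (w + κ))
    (hd : 0 < d) (hu : d < 2 ^ (w * (u + 1))) :
    ∑ r : Fin b → Fin (2 ^ w), coll (xf w r d) d
      ≤ 2 ^ b * (b + 1) ^ (2 * g + u) * (2 ^ w) ^ b
        + 4 ^ b * (2 * b ^ g * ((2 ^ ((w + κ) * g) / d + 1) * (2 ^ w) ^ (b - g))) := by
  classical
  set F := 2 * b ^ g * ((2 ^ ((w + κ) * g) / d + 1) * (2 ^ w) ^ (b - g)) with hF
  have h1 : ∑ r : Fin b → Fin (2 ^ w), coll (xf w r d) d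
      = ∑ p : Finset (Fin b) × Finset (Fin b),
        (univ.filter (fun r : Fin b → Fin (2 ^ w) =>
          xf w r d p.1 ≡ xf w r d p.2 [MOD d])).card := by
    unfold coll
    simp only [card_filter]
    rw [sum_comm]
  rw [h1]
  rw [← sum_filter_add_sum_filter_not univ
    (fun p : Finset (Fin b) × Finset (Fin b) => (symmDiff p.1 p.2).card < 2 * g + u)]
  apply Nat.add_le_add
  · calc _ ≤ ∑ p ∈ univ.filter (fun p : Finset (Fin b) × Finset (Fin b) =>
            (symmDiff p.1 p.2).card < 2 * g + u), (2 ^ w) ^ b := by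
          apply sum_le_sum
          intro p _
          refine (card_le_univ _).trans ?_
          rw [Fintype.card_fun, Fintype.card_fin, Fintype.card_fin]
      _ = _ := by rw [sum_const, smul_eq_mul]
      _ ≤ _ := Nat.mul_le_mul_right _ (card_small_pairs_le hb _)
  · calc _ ≤ ∑ p ∈ univ.filter (fun p : Finset (Fin b) × Finset (Fin b) =>
            ¬ (symmDiff p.1 p.2).card < 2 * g + u), F := by
          apply sum_le_sum
          intro p hp
          rw [mem_filter, not_lt] at hp
          exact card_large_le hz hd hu hp.2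
      _ = _ := by rw [sum_const, smul_eq_mul]
      _ ≤ _ := by
          apply Nat.mul_le_mul_right
          refine (card_le_univ _).trans ?_
          rw [Fintype.card_prod, Fintype.card_finset, Fintype.card_fin]
          rw [← Nat.mul_pow]

end Vale.Agent.P012
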