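import Mathlib

/-!
# P012: basic definitions used in the proof

* `UF k r`   : the rational `r` is a sum of at most `k` unit fractions (repetitions allowed);
* `Rich S E k` : every `1 ≤ c ≤ E` divides a positive sum of at most `k` divisors of `S`;
* `coll x d` : the number of collisions modulo `d` of a finite family `x` of naturals.
-/

namespace Vale.Agent.P012

/-- `UF k r`: the rational `r` is a sum of at most `k` unit fractions, repetitions allowed. -/
def UF (k : ℕ) (r : ℚ) : Prop :=
  ∃ m : Multiset ℕ, m.card ≤ k ∧ (∀ n ∈ m, 1 ≤ n) ∧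
    (m.map (fun n : ℕ => (1 : ℚ) / n)).sum = r

/-- `Rich S E k`: every `1 ≤ c ≤ E` divides a positive sum of at most `k` divisors of `S`. -/
def Rich (S E k : ℕ) : Prop :=
  ∀ c : ℕ, 1 ≤ c → c ≤ E →
    ∃ m : Multiset ℕ, m.card ≤ k ∧ (∀ s ∈ m, s ∣ S) ∧ 0 < m.sum ∧ c ∣ m.sum

/-- The number of collisions modulo `d` of a finite family `x` of naturals. -/
def coll {ι : Type} [Fintype ι] (x : ι → ℕ) (d : ℕ) : ℕ :=
  (Finset.univ.filter (fun p : ι × ι => x p.1 ≡ x p.2 [MOD d])).card

end Vale.Agent.P012
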