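import Mathlib

namespace Vale.Agent.P012

/-- the `k`-th prime (starting from `0`) -/
noncomputable def pr (k : ℕ) : ℕ := Nat.nth Nat.Prime k

theorem pr_prime (k : ℕ) : (pr k).Prime := Nat.prime_nth_prime k

theorem pr_strictMono : StrictMono pr := Nat.nth_strictMono Nat.infinite_setOfPred_prime

theorem pr_injective : Function.Injective pr := pr_strictMono.injective

theorem le_pr (k : ℕ) : k + 2 ≤ pr k := Nat.add_two_le_nth_prime k

theorem pr_le_of_lt {v τ k : ℕ} (hv : 3 ≤ v) (hτ : 4 * v ≤ 2 ^ τ) (hk : k < 2 ^ v) :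
    pr k ≤ 2 ^ (v + τ) := by
  set n : ℕ := 2 ^ (v + τ) with hn
  have hτ4 : 4 ≤ τ := by
    by_contra h
    push Not at h
    have : 2 ^ τ ≤ 2 ^ 3 := Nat.pow_le_pow_right (by norm_num) (by omega)
    omega
  have h4τ : 4 * τ ≤ 2 ^ τ := by
    clear hτ hk hn n
    induction τ, hτ4 using Nat.le_induction with
    | base => norm_num
    | succ m hm ih => rw [pow_succ]; omega
  have hpi := Chebyshev.pi_ge n
  have hlog2 : (0 : ℝ) < Real.log 2 := Real.log_pos (by norm_num)
  have hlogn : Real.log (n : ℝ) = (v + τ : ℕ) * Real.log 2 := by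
    rw [hn]; push_cast; rw [Real.log_pow]; push_cast; ring
  have hn2 : 2 ≤ n := by
    rw [hn]
    calc 2 = 2 ^ 1 := by norm_num
      _ ≤ 2 ^ (v + τ) := Nat.pow_le_pow_right (by norm_num) (by omega)
  have hlogn_pos : 0 < Real.log (n : ℝ) := by
    apply Real.log_pos
    exact_mod_cast (by omega : 1 < n)
  have hlog1 : Real.log ((n : ℝ) + 1) ≤ 2 * Real.log n := by
    have h1 : (n : ℝ) + 1 ≤ (n : ℝ) ^ 2 := by
      have : (2 : ℝ) ≤ n := by exact_mod_cast hn2
      nlinarith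
    calc Real.log ((n : ℝ) + 1) ≤ Real.log ((n : ℝ) ^ 2) := by
          apply Real.log_le_log (by positivity) h1
      _ = 2 * Real.log n := by rw [Real.log_pow]; push_cast; ring
  have hbig : (2 : ℝ) ^ (v + 1) ≤ (n : ℝ) / (v + τ : ℕ) := by
    have hpos : (0 : ℝ) < ((v + τ : ℕ) : ℝ) := by
      exact_mod_cast (by omega : 0 < v + τ)
    rw [le_div_iff₀ hpos]
    have : 2 ^ (v + 1) * (v + τ) ≤ n := by
      rw [hn, pow_succ, pow_add]
      have : 2 * (v + τ) ≤ 2 ^ τ := by omega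
      calc 2 ^ v * 2 * (v + τ) = 2 ^ v * (2 * (v + τ)) := by ring
        _ ≤ 2 ^ v * 2 ^ τ := Nat.mul_le_mul_left _ this
    exact_mod_cast this
  have hmain : (2 : ℝ) ^ (v + 1) - 2 ≤ (Nat.primeCounting n : ℝ) := by
    refine le_trans ?_ hpi
    rw [sub_div]
    have e1 : (n : ℝ) * Real.log 2 / Real.log n = (n : ℝ) / (v + τ : ℕ) := by
      rw [hlogn]
      field_simp
    have e2 : Real.log ((n : ℝ) + 1) / Real.log n ≤ 2 := by
      rw [div_le_iff₀ hlogn_pos]; linarith
    rw [e1]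
    linarith
  have hcount : k < Nat.primeCounting n := by
    have h8 : (8 : ℝ) ≤ 2 ^ v := by
      calc (8 : ℝ) = 2 ^ 3 := by norm_num
        _ ≤ 2 ^ v := pow_le_pow_right₀ (by norm_num) hv
    have hk' : (k : ℝ) < 2 ^ v := by exact_mod_cast hk
    have : (k : ℝ) < (Nat.primeCounting n : ℝ) := by
      have : (2 : ℝ) ^ (v + 1) = 2 * 2 ^ v := by ring
      linarith
    exact_mod_cast this
  have : Nat.nth Nat.Prime k < n + 1 := by
    apply Nat.nth_lt_of_lt_count
    exact hcount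
  unfold pr
  omega

end Vale.Agent.P012
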