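import Vale.Agent.P012.Coll
import Vale.Agent.P012.Primes

namespace Vale.Agent.P012

open Finset

/-- the `i`-th prime of the block with data `r` -/
noncomputable def P (w : ℕ) {b : ℕ} (r : Fin b → Fin (2 ^ w)) (i : Fin b) : ℕ :=
  pr (2 ^ w * (i.1 + 1) + (r i).1)

theorem P_prime (w : ℕ) {b : ℕ} (r : Fin b → Fin (2 ^ w)) (i : Fin b) : (P w r i).Prime :=
  pr_prime _

theorem P_inj {w b : ℕ} {r r' : Fin b → Fin (2 ^ w)} {i j : Fin b} (h : P w r i = P w r' j) :
    i = j ∧ r i = r' j := by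
  have h1 : 2 ^ w * (i.1 + 1) + (r i).1 = 2 ^ w * (j.1 + 1) + (r' j).1 := pr_injective h
  have hr := (r i).2
  have hr' := (r' j).2
  have hij : i.1 = j.1 := by
    have e1 : (2 ^ w * (i.1 + 1) + (r i).1) / 2 ^ w = i.1 + 1 := by
      rw [Nat.mul_add_div (by positivity), Nat.div_eq_of_lt hr]
    have e2 : (2 ^ w * (j.1 + 1) + (r' j).1) / 2 ^ w = j.1 + 1 := by
      rw [Nat.mul_add_div (by positivity), Nat.div_eq_of_lt hr']
    rw [h1, e2] at e1
    omega
  refine ⟨Fin.ext hij, Fin.ext ?_⟩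
  rw [hij] at h1
  omega

theorem two_pow_le_P (w : ℕ) {b : ℕ} (r : Fin b → Fin (2 ^ w)) (i : Fin b) : 2 ^ w ≤ P w r i := by
  have h := le_pr (2 ^ w * (i.1 + 1) + (r i).1)
  unfold P
  nlinarith [Nat.two_pow_pos w]

theorem P_le {w b κ : ℕ} (hz : ∀ k, k < 2 ^ w * (b + 1) → pr k ≤ 2 ^ (w + κ))
    (r : Fin b → Fin (2 ^ w)) (i : Fin b) : P w r i ≤ 2 ^ (w + κ) := by
  apply hz
  have h1 := (r i).2
  have h2 := i.2
  calc 2 ^ w * (i.1 + 1) + (r i).1 < 2 ^ w * (i.1 + 1) + 2 ^ w := by omega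
    _ = 2 ^ w * (i.1 + 2) := by ring
    _ ≤ 2 ^ w * (b + 1) := Nat.mul_le_mul_left _ (by omega)

theorem P_coprime {w b : ℕ} (r : Fin b → Fin (2 ^ w)) {i j : Fin b} (h : i ≠ j) :
    (P w r i).Coprime (P w r j) := by
  rw [Nat.coprime_primes (P_prime w r i) (P_prime w r j)]
  intro h'
  exact h (P_inj h').1

/-- few block primes divide a small number -/
theorem card_dvd_le {w b u n : ℕ} (r : Fin b → Fin (2 ^ w)) (hn : 0 < n)
    (hn2 : n < 2 ^ (w * (u + 1))) :
    (univ.filter (fun i : Fin b => P w r i ∣ n)).card ≤ u := by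
  set T := univ.filter (fun i : Fin b => P w r i ∣ n) with hT
  have hdvd : ∏ i ∈ T, P w r i ∣ n := by
    apply Finset.prod_dvd_of_isRelPrime
    · intro i _ j _ hij
      exact Nat.coprime_iff_isRelPrime.mp (P_coprime r hij)
    · intro i hi
      rw [hT, mem_filter] at hi
      exact hi.2
  have hle := Nat.le_of_dvd hn hdvd
  have h2 : (2 ^ w) ^ T.card ≤ ∏ i ∈ T, P w r i := by
    rw [← prod_const]
    exact prod_le_prod' (fun i _ => two_pow_le_P w r i)
  have h3 : 2 ^ (w * T.card) < 2 ^ (w * (u + 1)) := by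
    rw [pow_mul]
    omega
  have h4 : w * T.card < w * (u + 1) := (Nat.pow_lt_pow_iff_right (by norm_num)).mp h3
  have h5 : T.card < u + 1 := lt_of_mul_lt_mul_left h4 (Nat.zero_le _)
  omega

/-- product of the primes of the block indexed by `A` which do not divide `c` -/
noncomputable def xf (w : ℕ) {b : ℕ} (r : Fin b → Fin (2 ^ w)) (c : ℕ) (A : Finset (Fin b)) : ℕ :=
  ∏ i ∈ A.filter (fun i => ¬ P w r i ∣ c), P w r i

theorem xf_coprime (w : ℕ) {b : ℕ} (r : Fin b → Fin (2 ^ w)) (c : ℕ) (A : Finset (Fin b)) :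
    (xf w r c A).Coprime c := by
  unfold xf
  apply Nat.Coprime.prod_left
  intro i hi
  rw [mem_filter] at hi
  exact (Nat.Prime.coprime_iff_not_dvd (P_prime w r i)).mpr hi.2

theorem xf_union {w b : ℕ} (r : Fin b → Fin (2 ^ w)) (c : ℕ) {A B : Finset (Fin b)}
    (h : Disjoint A B) : xf w r c (A ∪ B) = xf w r c A * xf w r c B := by
  unfold xf
  rw [filter_union, prod_union]
  exact disjoint_filter_filter h

theorem xf_dvd (w : ℕ) {b : ℕ} (r : Fin b → Fin (2 ^ w)) (c : ℕ) (A : Finset (Fin b)) :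
    xf w r c A ∣ ∏ i, P w r i := by
  unfold xf
  exact prod_dvd_prod_of_subset _ _ _ (subset_univ _)

theorem xf_congr {w b : ℕ} {r r' : Fin b → Fin (2 ^ w)} (c : ℕ) {A : Finset (Fin b)}
    (h : ∀ i ∈ A, r i = r' i) : xf w r c A = xf w r' c A := by
  have hP : ∀ i ∈ A, P w r i = P w r' i := by
    intro i hi
    unfold P
    rw [h i hi]
  unfold xf
  have : A.filter (fun i => ¬ P w r i ∣ c) = A.filter (fun i => ¬ P w r' i ∣ c) := by
    apply filter_congr
    intro i hi
    rw [hP i hi]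
  rw [this]
  apply prod_congr rfl
  intro i hi
  exact hP i (mem_filter.mp hi).1

/-- products over a fixed set determine the data -/
theorem prod_P_inj {w b : ℕ} {r r' : Fin b → Fin (2 ^ w)} {B : Finset (Fin b)}
    (h : ∏ i ∈ B, P w r i = ∏ i ∈ B, P w r' i) : ∀ i ∈ B, r i = r' i := by
  intro i hi
  have h1 : P w r i ∣ ∏ j ∈ B, P w r' j := by
    rw [← h]
    exact dvd_prod_of_mem _ hi
  have h2 := (Nat.Prime.prime (P_prime w r i)).exists_mem_finset_dvd h1
  obtain ⟨j, hj, hd⟩ := h2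
  have h3 := (Nat.prime_dvd_prime_iff_eq (P_prime w r i) (P_prime w r' j)).mp hd
  obtain ⟨hij, hr⟩ := P_inj h3
  rw [hr, hij]

theorem xf_alive {w b : ℕ} {r : Fin b → Fin (2 ^ w)} {d : ℕ} {B : Finset (Fin b)}
    (h : ∀ i ∈ B, ¬ P w r i ∣ d) : xf w r d B = ∏ i ∈ B, P w r i := by
  unfold xf
  rw [filter_true_of_mem h]

theorem card_fiber_le {w b κ d g : ℕ} (hz : ∀ k, k < 2 ^ w * (b + 1) → pr k ≤ 2 ^ (w + κ))
    (hd : 0 < d) {A A' B : Finset (Fin b)} (hB : B ⊆ A \ A') (hg : B.card = g) :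
    (univ.filter (fun r : Fin b → Fin (2 ^ w) => (∀ i ∈ B, ¬ P w r i ∣ d) ∧
      xf w r d A ≡ xf w r d A' [MOD d])).card
      ≤ (2 ^ ((w + κ) * g) / d + 1) * (2 ^ w) ^ (b - g) := by
  classical
  set F := univ.filter (fun r : Fin b → Fin (2 ^ w) => (∀ i ∈ B, ¬ P w r i ∣ d) ∧
      xf w r d A ≡ xf w r d A' [MOD d]) with hF
  set z0 : Fin (2 ^ w) := ⟨0, Nat.two_pow_pos w⟩ with hz0
  set φ : (Fin b → Fin (2 ^ w)) → (Fin b → Fin (2 ^ w)) :=
    fun r i => if i ∈ B then z0 else r i with hφ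
  set T : Finset (Fin b → Fin (2 ^ w)) :=
    Fintype.piFinset (fun i => if i ∈ B then {z0} else univ) with hTdef
  have hT : T.card = (2 ^ w) ^ (b - g) := by
    rw [hTdef, Fintype.card_piFinset]
    have : ∀ i : Fin b, (if i ∈ B then ({z0} : Finset (Fin (2 ^ w))) else univ).card
        = if i ∈ B then 1 else 2 ^ w := by
      intro i
      split_ifs
      · simp
      · simp
    rw [prod_congr rfl (fun i _ => this i), prod_ite]
    simp only [prod_const_one, one_mul, prod_const]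
    congr 1
    have : (univ.filter (fun i : Fin b => i ∉ B)) = univ \ B := by
      ext i; simp
    rw [this, card_sdiff_of_subset (subset_univ B), hg, card_univ, Fintype.card_fin]
  have hmaps : ∀ r ∈ F, φ r ∈ T := by
    intro r _
    rw [hTdef, Fintype.mem_piFinset]
    intro i
    simp only [hφ]
    split_ifs
    · simp
    · simp
  have hBA : B ⊆ A := fun i hi => (mem_sdiff.mp (hB hi)).1
  have hBA' : Disjoint A' B := by
    rw [Finset.disjoint_right]
    intro i hi
    exact (mem_sdiff.mp (hB hi)).2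
  have hfib : ∀ r0 ∈ T, (F.filter (fun r => φ r = r0)).card ≤ 2 ^ ((w + κ) * g) / d + 1 := by
    intro r0 _
    have hout : ∀ r, φ r = r0 → ∀ i, i ∉ B → r i = r0 i := by
      intro r hr i hi
      rw [← hr]
      simp only [hφ]
      rw [if_neg hi]
    rw [← card_range (2 ^ ((w + κ) * g) / d + 1)]
    apply card_le_card_of_injOn (fun r => (∏ i ∈ B, P w r i) / d)
    · intro r _
      rw [coe_range, Set.mem_Iio]
      apply Nat.lt_succ_of_le
      apply Nat.div_le_div_right
      calc ∏ i ∈ B, P w r i ≤ ∏ i ∈ B, 2 ^ (w + κ) := prod_le_prod' (fun i _ => P_le hz r i)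
        _ = 2 ^ ((w + κ) * g) := by rw [prod_const, hg, pow_mul]
    · intro r hr r' hr' heq
      rw [mem_coe, mem_filter, hF, mem_filter] at hr hr'
      obtain ⟨⟨_, hal, hmod⟩, hφr⟩ := hr
      obtain ⟨⟨_, hal', hmod'⟩, hφr'⟩ := hr'
      have e1 : ∀ r : Fin b → Fin (2 ^ w), xf w r d A = xf w r d (A \ B) * xf w r d B := by
        intro r
        rw [← xf_union r d (sdiff_disjoint), sdiff_union_of_subset hBA]
      have e2 : xf w r d (A \ B) = xf w r' d (A \ B) := by
        apply xf_congr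
        intro i hi
        rw [hout r hφr i (mem_sdiff.mp hi).2, hout r' hφr' i (mem_sdiff.mp hi).2]
      have e3 : xf w r d A' = xf w r' d A' := by
        apply xf_congr
        intro i hi
        have hiB : i ∉ B := fun h => (Finset.disjoint_left.mp hBA') hi h
        rw [hout r hφr i hiB, hout r' hφr' i hiB]
      rw [e1 r, xf_alive hal] at hmod
      rw [e1 r', xf_alive hal', ← e2, ← e3] at hmod'
      have hcong : ∏ i ∈ B, P w r i ≡ ∏ i ∈ B, P w r' i [MOD d] := by
        apply Nat.ModEq.cancel_left_of_coprime (c := xf w r d (A \ B))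
        · rw [Nat.gcd_comm]
          exact xf_coprime w r d (A \ B)
        · exact hmod.trans hmod'.symm
      have heq' : ∏ i ∈ B, P w r i = ∏ i ∈ B, P w r' i := by
        have h1 := Nat.div_add_mod (∏ i ∈ B, P w r i) d
        have h2 := Nat.div_add_mod (∏ i ∈ B, P w r' i) d
        have h3 : (∏ i ∈ B, P w r i) / d = (∏ i ∈ B, P w r' i) / d := heq
        have h4 : (∏ i ∈ B, P w r i) % d = (∏ i ∈ B, P w r' i) % d := hcong
        rw [← h1, ← h2, h3, h4]
      have hB' := prod_P_inj heq'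
      funext i
      by_cases hi : i ∈ B
      · exact hB' i hi
      · rw [hout r hφr i hi, hout r' hφr' i hi]
  rw [← hT]
  exact card_le_mul_card_image_of_maps_to hmaps _ hfib

end Vale.Agent.P012
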