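import Vale.Agent.P012.Scale

namespace Vale.Agent.P012

open Finset

theorem chain {C : Set ℕ} (hC : ∀ c ∈ C, 0 < c) {Y α γ μ₀ : ℕ} (hμ₀ : 20 ≤ μ₀)
    (hs : ∀ μ, μ₀ ≤ μ → μ < Y → ∃ S, 0 < S ∧ S ≤ 2 ^ (α + γ * μ) ∧
      Good C S (Set.Ioc (2 ^ (64 * μ)) (2 ^ (80 * μ)))) :
    ∀ n μ, μ₀ ≤ μ → 5 ^ n * Y ≤ 6 ^ n * μ →
      ∃ S, 0 < S ∧ S ≤ 2 ^ (n * α + 5 * γ * (2 * Y - μ)) ∧
        Good C S (Set.Ioc (2 ^ (64 * μ)) (2 ^ (64 * Y))) := by
  have htriv : ∀ n μ, Y ≤ μ → ∃ S, 0 < S ∧ S ≤ 2 ^ (n * α + 5 * γ * (2 * Y - μ)) ∧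
        Good C S (Set.Ioc (2 ^ (64 * μ)) (2 ^ (64 * Y))) := by
    intro n μ hμ
    refine ⟨1, one_pos, Nat.one_le_two_pow, ?_⟩
    apply good_mono (good_one C)
    rw [Set.Ioc_eq_empty]
    rw [not_lt]
    exact Nat.pow_le_pow_right (by norm_num) (Nat.mul_le_mul_left _ hμ)
  intro n
  induction n with
  | zero =>
    intro μ _ h2
    apply htriv
    simpa using h2
  | succ n ih =>
    intro μ h1 h2
    rcases Nat.lt_or_ge μ Y with hμ | hμ
    swap
    · exact htriv _ _ hμ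
    obtain ⟨S₁, hS₁, hS₁', hG₁⟩ := hs μ h1 hμ
    have h3 : 5 ^ n * Y ≤ 6 ^ n * (μ + μ / 4) := by
      have h4 : 6 * μ ≤ 5 * (μ + μ / 4) := by omega
      have h5 : 5 * (5 ^ n * Y) ≤ 5 * (6 ^ n * (μ + μ / 4)) := by
        calc 5 * (5 ^ n * Y) = 5 ^ (n + 1) * Y := by ring
          _ ≤ 6 ^ (n + 1) * μ := h2
          _ = 6 ^ n * (6 * μ) := by ring
          _ ≤ 6 ^ n * (5 * (μ + μ / 4)) := Nat.mul_le_mul_left _ h4
          _ = _ := by ring
      omega
    obtain ⟨S₂, hS₂, hS₂', hG₂⟩ := ih (μ + μ / 4) (by omega) h3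
    refine ⟨S₁ * S₂, Nat.mul_pos hS₁ hS₂, ?_, ?_⟩
    · calc S₁ * S₂ ≤ 2 ^ (α + γ * μ) * 2 ^ (n * α + 5 * γ * (2 * Y - (μ + μ / 4))) :=
            Nat.mul_le_mul hS₁' hS₂'
        _ = 2 ^ ((n + 1) * α + γ * (μ + 5 * (2 * Y - (μ + μ / 4)))) := by
            rw [← pow_add]
            congr 1
            ring
        _ ≤ 2 ^ ((n + 1) * α + γ * (5 * (2 * Y - μ))) := by
            apply Nat.pow_le_pow_right (by norm_num)
            apply Nat.add_le_add_left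
            apply Nat.mul_le_mul_left
            omega
        _ = _ := by
            congr 1
            ring
    · apply good_mono (good_mul hC hG₁ hG₂)
      intro d hd
      rw [Set.mem_Ioc] at hd
      rcases Nat.lt_or_ge (2 ^ (80 * μ)) d with h | h
      · right
        refine ⟨lt_of_le_of_lt ?_ h, hd.2⟩
        exact Nat.pow_le_pow_right (by norm_num) (by omega)
      · left
        exact ⟨hd.1, h⟩

theorem lin_le_two_pow {n : ℕ} (hn : 20 ≤ n) : 10000 * n ≤ 2 ^ n := by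
  induction n, hn using Nat.le_induction with
  | base => norm_num
  | succ n hn ih =>
    rw [pow_succ]
    omega

theorem lin_le_two_pow' {n : ℕ} (hn : 16 ≤ n) : 128 * (3 * n + 42) ≤ 2 ^ n := by
  induction n, hn using Nat.le_induction with
  | base => norm_num
  | succ n hn ih =>
    rw [pow_succ]
    omega

theorem big_family {J Λ : ℕ} (hΛ : 20 ≤ Λ) (h1 : 2 ^ Λ ≤ J) (h2 : J < 2 ^ (Λ + 1)) :
    ∃ S, 0 < S ∧ S ≤ 2 ^ (1100000 * Λ * J) ∧
      Good {c | 1 ≤ c ∧ c ≤ 2 ^ J} S (Set.Ioc (2 ^ (1024 * Λ)) (2 ^ J)) := by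
  have hC : ∀ c ∈ {c | 1 ≤ c ∧ c ≤ 2 ^ J}, 0 < c := fun c hc => hc.1
  have hlin := lin_le_two_pow hΛ
  have hs : ∀ μ, 16 * Λ ≤ μ → μ < J / 64 + 1 →
      ∃ S, 0 < S ∧ S ≤ 2 ^ (5248 * J + 3411200 * Λ * μ) ∧
      Good {c | 1 ≤ c ∧ c ≤ 2 ^ J} S (Set.Ioc (2 ^ (64 * μ)) (2 ^ (80 * μ))) := by
    intro μ hμ1 hμ2
    have hJμ : J < (J / μ + 1) * μ := by
      rw [mul_comm]
      exact Nat.lt_mul_div_succ _ (by omega)
    have hJμ2 : μ * (J / μ) ≤ J := Nat.mul_div_le _ _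
    obtain ⟨q, hq⟩ : ∃ q, q = J / μ := ⟨_, rfl⟩
    rw [← hq] at hJμ hJμ2
    have hq16 : q ≤ J / 16 := by
      rw [hq]
      exact Nat.div_le_div_left (by omega) (by norm_num)
    set w := q + 1 + 640 * Λ with hw
    have h2' : J < 2 * 2 ^ Λ := by rw [pow_succ] at h2; omega
    have hβ : 128 * μ + 1 ≤ 2 ^ (Λ + 2) := by
      have : (2 : ℕ) ^ (Λ + 2) = 4 * 2 ^ Λ := by ring
      rw [this]
      omega
    have hτ : 4 * (w + (Λ + 2)) ≤ 2 ^ (Λ + 4) := by
      have : (2 : ℕ) ^ (Λ + 4) = 16 * 2 ^ Λ := by ring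
      rw [this, hw]
      omega
    have hz : ∀ k, k < 2 ^ w * (128 * μ + 1) → pr k ≤ 2 ^ (w + (2 * Λ + 6)) := by
      intro k hk
      have h3 : k < 2 ^ (w + (Λ + 2)) := by
        refine lt_of_lt_of_le hk ?_
        rw [pow_add 2 w (Λ + 2)]
        exact Nat.mul_le_mul_left _ hβ
      have h4 := pr_le_of_lt (v := w + (Λ + 2)) (τ := Λ + 4) (by omega) hτ h3
      refine h4.trans (le_of_eq ?_)
      congr 1
      ring
    have hdiv : 80 * μ / w ≤ μ / (8 * Λ) := by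
      calc 80 * μ / w ≤ 80 * μ / (640 * Λ) := Nat.div_le_div_left (by omega) (by omega)
        _ = 80 * μ / (80 * (8 * Λ)) := by congr 1; ring
        _ = μ / (8 * Λ) := Nat.mul_div_mul_left _ _ (by norm_num)
    have hN : (80 * μ / w + 1) * ((Λ + 2) + (2 * Λ + 6)) + 3 ≤ μ := by
      have h5 : (8 * Λ) * (μ / (8 * Λ)) ≤ μ := Nat.mul_div_le _ _
      calc (80 * μ / w + 1) * ((Λ + 2) + (2 * Λ + 6)) + 3
          ≤ (μ / (8 * Λ) + 1) * (4 * Λ) + 3 := by
            apply Nat.add_le_add_right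
            apply Nat.mul_le_mul
            · omega
            · omega
        _ = (4 * Λ) * (μ / (8 * Λ)) + (4 * Λ + 3) := by ring
        _ ≤ μ := by
            have h6 : 2 * ((4 * Λ) * (μ / (8 * Λ))) ≤ μ := by
              calc 2 * ((4 * Λ) * (μ / (8 * Λ))) = (8 * Λ) * (μ / (8 * Λ)) := by ring
                _ ≤ μ := h5
            omega
    obtain ⟨S, hS1, hS2, hS3⟩ := scale (w := w) (κ := 2 * Λ + 6) (β := Λ + 2) (μ := μ)
      (by omega) (by omega) hβ hz hN hC (by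
        intro c hc r
        apply card_dvd_le r hc.1
        refine lt_of_le_of_lt hc.2 ?_
        apply Nat.pow_lt_pow_right (by norm_num)
        calc J < (q + 1) * μ := hJμ
          _ ≤ w * (μ + 1) := Nat.mul_le_mul (by omega) (by omega))
    refine ⟨S, hS1, hS2.trans ?_, hS3⟩
    apply Nat.pow_le_pow_right (by norm_num)
    calc 5248 * μ * (w + (2 * Λ + 6)) = 5248 * (μ * q) + 5248 * μ * (642 * Λ + 7) := by
          rw [hw]; ring
      _ ≤ 5248 * J + 5248 * μ * (650 * Λ) := by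
          apply Nat.add_le_add
          · exact Nat.mul_le_mul_left _ hJμ2
          · apply Nat.mul_le_mul_left
            omega
      _ = _ := by ring
  have hchain := chain hC (μ₀ := 16 * Λ) (by omega) hs (4 * Λ) (16 * Λ) le_rfl (by
    have hY : J / 64 + 1 ≤ 2 ^ Λ := by
      rw [pow_succ] at h2
      omega
    calc 5 ^ (4 * Λ) * (J / 64 + 1) ≤ 5 ^ (4 * Λ) * 2 ^ Λ := Nat.mul_le_mul_left _ hY
      _ = 1250 ^ Λ := by
          rw [pow_mul, ← mul_pow]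
          norm_num
      _ ≤ 1296 ^ Λ := Nat.pow_le_pow_left (by norm_num) _
      _ = 6 ^ (4 * Λ) * 1 := by
          rw [pow_mul]
          norm_num
      _ ≤ 6 ^ (4 * Λ) * (16 * Λ) := Nat.mul_le_mul_left _ (by omega))
  obtain ⟨S, hS1, hS2, hS3⟩ := hchain
  refine ⟨S, hS1, hS2.trans ?_, ?_⟩
  · apply Nat.pow_le_pow_right (by norm_num)
    calc 4 * Λ * (5248 * J) + 5 * (3411200 * Λ) * (2 * (J / 64 + 1) - 16 * Λ)
        ≤ 4 * Λ * (5248 * J) + 5 * (3411200 * Λ) * (J / 16) := by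
          apply Nat.add_le_add_left
          apply Nat.mul_le_mul_left
          omega
      _ = 20992 * Λ * J + 1066000 * Λ * (16 * (J / 16)) := by ring
      _ ≤ 20992 * Λ * J + 1066000 * Λ * J := by
          apply Nat.add_le_add_left
          apply Nat.mul_le_mul_left
          omega
      _ ≤ _ := by nlinarith [Nat.zero_le (Λ * J)]
  · apply good_mono hS3
    intro d hd
    rw [Set.mem_Ioc] at hd ⊢
    refine ⟨?_, ?_⟩
    · refine lt_of_le_of_lt ?_ hd.1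
      exact Nat.pow_le_pow_right (by norm_num) (by omega)
    · refine hd.2.trans ?_
      exact Nat.pow_le_pow_right (by norm_num) (by omega)

theorem small_family {Λ : ℕ} (hΛ : 2 ^ 16 ≤ Λ) :
    ∃ S, 0 < S ∧ S ≤ 2 ^ (1175552000 * Λ * Λ) ∧
      Good {Nat.factorial (2 ^ (1024 * Λ))} S
        (Set.Ioc (2 ^ (64 * (Λ / 128))) (2 ^ (1024 * Λ))) := by
  set C : Set ℕ := {Nat.factorial (2 ^ (1024 * Λ))} with hCdef
  have hC : ∀ c ∈ C, 0 < c := by
    intro c hc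
    rw [hCdef, Set.mem_singleton_iff] at hc
    rw [hc]
    exact Nat.factorial_pos _
  set ℓ := Nat.log 2 Λ with hℓ
  have hℓ16 : 16 ≤ ℓ := by
    rw [hℓ]
    exact Nat.le_log_of_pow_le (by norm_num) hΛ
  have hℓ1 : 2 ^ ℓ ≤ Λ := Nat.pow_log_le_self 2 (by omega)
  have hℓ2 : Λ < 2 * 2 ^ ℓ := by
    have := Nat.lt_pow_succ_log_self (b := 2) (by norm_num) Λ
    rw [← hℓ, pow_succ] at this
    omega
  have hlin := lin_le_two_pow' hℓ16
  have hs : ∀ μ, Λ / 128 ≤ μ → μ < 16 * Λ →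
      ∃ S, 0 < S ∧ S ≤ 2 ^ (0 + 7347200 * Λ * μ) ∧
      Good C S (Set.Ioc (2 ^ (64 * μ)) (2 ^ (80 * μ))) := by
    intro μ hμ1 hμ2
    set w := 1280 * Λ + 1 with hw
    have hβ : 128 * μ + 1 ≤ 2 ^ (ℓ + 12) := by
      have : (2 : ℕ) ^ (ℓ + 12) = 4096 * 2 ^ ℓ := by ring
      rw [this]
      omega
    have hτ : 4 * (w + (ℓ + 12)) ≤ 2 ^ (ℓ + 14) := by
      have : (2 : ℕ) ^ (ℓ + 14) = 16384 * 2 ^ ℓ := by ring
      rw [this, hw]
      omega
    have hz : ∀ k, k < 2 ^ w * (128 * μ + 1) → pr k ≤ 2 ^ (w + (2 * ℓ + 26)) := by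
      intro k hk
      have h3 : k < 2 ^ (w + (ℓ + 12)) := by
        refine lt_of_lt_of_le hk ?_
        rw [pow_add 2 w (ℓ + 12)]
        exact Nat.mul_le_mul_left _ hβ
      have h4 := pr_le_of_lt (v := w + (ℓ + 12)) (τ := ℓ + 14) (by omega) hτ h3
      refine h4.trans (le_of_eq ?_)
      congr 1
      ring
    have hdiv : 80 * μ / w = 0 := Nat.div_eq_of_lt (by omega)
    have hN : (80 * μ / w + 1) * ((ℓ + 12) + (2 * ℓ + 26)) + 3 ≤ μ := by
      rw [hdiv]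
      omega
    obtain ⟨S, hS1, hS2, hS3⟩ := scale (w := w) (κ := 2 * ℓ + 26) (β := ℓ + 12) (μ := μ)
      (by omega) (by omega) hβ hz hN hC (by
        intro c hc r
        rw [hCdef, Set.mem_singleton_iff] at hc
        rw [hc]
        have : (univ.filter (fun i => P w r i ∣ Nat.factorial (2 ^ (1024 * Λ)))) = ∅ := by
          rw [filter_eq_empty_iff]
          intro i _ h
          rw [Nat.Prime.dvd_factorial (P_prime w r i)] at h
          have h5 := two_pow_le_P w r i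
          have h6 : (2 : ℕ) ^ (1024 * Λ) < 2 ^ w := Nat.pow_lt_pow_right (by norm_num) (by omega)
          omega
        rw [this, card_empty]
        exact Nat.zero_le _)
    refine ⟨S, hS1, hS2.trans ?_, hS3⟩
    apply Nat.pow_le_pow_right (by norm_num)
    calc 5248 * μ * (w + (2 * ℓ + 26)) ≤ 5248 * μ * (1400 * Λ) := by
          apply Nat.mul_le_mul_left
          omega
      _ = _ := by ring
  obtain ⟨S, hS1, hS2, hS3⟩ := chain hC (μ₀ := Λ / 128) (by omega) hs 46 (Λ / 128) le_rfl (by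
    have h7 : Λ ≤ 256 * (Λ / 128) := by omega
    calc 5 ^ 46 * (16 * Λ) ≤ 5 ^ 46 * (16 * (256 * (Λ / 128))) := by gcongr
      _ = (5 ^ 46 * 4096) * (Λ / 128) := by ring
      _ ≤ 6 ^ 46 * (Λ / 128) := Nat.mul_le_mul_right _ (by norm_num))
  refine ⟨S, hS1, hS2.trans ?_, ?_⟩
  · apply Nat.pow_le_pow_right (by norm_num)
    calc 46 * 0 + 5 * (7347200 * Λ) * (2 * (16 * Λ) - Λ / 128)
        ≤ 46 * 0 + 5 * (7347200 * Λ) * (32 * Λ) := by
          apply Nat.add_le_add_left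
          apply Nat.mul_le_mul_left
          omega
      _ = _ := by ring
  · apply good_mono hS3
    intro d hd
    rw [Set.mem_Ioc] at hd ⊢
    refine ⟨hd.1, ?_⟩
    refine hd.2.trans ?_
    exact Nat.pow_le_pow_right (by norm_num) (by omega)

end Vale.Agent.P012
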