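import Vale.Agent.P012.Basic

namespace Vale.Agent.P012

open Finset

/-- number of indices whose value is `t` modulo `d` -/
def cnt {ι : Type} [Fintype ι] (x : ι → ℕ) (d : ℕ) (t : ZMod d) : ℕ :=
  (univ.filter (fun i : ι => (x i : ZMod d) = t)).card

theorem card_pairs_eq {ι : Type} [Fintype ι] (x : ι → ℕ) {d : ℕ} [NeZero d] (w : ZMod d) :
    (univ.filter (fun p : ι × ι => (x p.2 : ZMod d) = (x p.1 : ZMod d) * w)).card
      = ∑ t : ZMod d, cnt x d t * cnt x d (t * w) := by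
  classical
  have h1 : (univ.filter (fun p : ι × ι => (x p.2 : ZMod d) = (x p.1 : ZMod d) * w)).card
      = ∑ i : ι, cnt x d ((x i : ZMod d) * w) := by
    unfold cnt
    rw [card_filter, Fintype.sum_prod_type]
    apply sum_congr rfl
    intro i _
    rw [card_filter]
  rw [h1]
  have h2 : ∀ t : ZMod d, cnt x d t * cnt x d (t * w)
      = ∑ i ∈ univ.filter (fun i : ι => (x i : ZMod d) = t), cnt x d ((x i : ZMod d) * w) := by
    intro t
    rw [sum_congr rfl (g := fun _ => cnt x d (t * w))]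
    · rw [sum_const, smul_eq_mul]; rfl
    · intro i hi
      rw [mem_filter] at hi
      rw [hi.2]
  rw [sum_congr rfl (fun t _ => h2 t)]
  rw [sum_fiberwise]

theorem coll_eq_sum {ι : Type} [Fintype ι] (x : ι → ℕ) {d : ℕ} [NeZero d] :
    coll x d = ∑ t : ZMod d, cnt x d t ^ 2 := by
  have h := card_pairs_eq x (d := d) 1
  have h2 : coll x d
      = (univ.filter (fun p : ι × ι => (x p.2 : ZMod d) = (x p.1 : ZMod d) * 1)).card := by
    unfold coll
    congr 1
    apply filter_congr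
    intro p _
    rw [mul_one, ZMod.natCast_eq_natCast_iff]
    exact ⟨fun h => h.symm, fun h => h.symm⟩
  rw [h2, h]
  apply sum_congr rfl
  intro t _
  rw [mul_one, sq]

theorem card_filter_mul_le {ι : Type} [Fintype ι] (x : ι → ℕ) {d u v : ℕ} (hd : 0 < d)
    (hu : u.Coprime d) (hv : v.Coprime d) :
    (univ.filter (fun p : ι × ι => x p.1 * u ≡ x p.2 * v [MOD d])).card ≤ coll x d := by
  have : NeZero d := ⟨hd.ne'⟩
  set U : (ZMod d)ˣ := ZMod.unitOfCoprime u hu with hU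
  set V : (ZMod d)ˣ := ZMod.unitOfCoprime v hv with hV
  set W : (ZMod d)ˣ := U * V⁻¹ with hW
  have h1 : (univ.filter (fun p : ι × ι => x p.1 * u ≡ x p.2 * v [MOD d])).card
      = (univ.filter (fun p : ι × ι => (x p.2 : ZMod d) = (x p.1 : ZMod d) * (W : ZMod d))).card := by
    congr 1
    apply filter_congr
    intro p _
    rw [← ZMod.natCast_eq_natCast_iff]
    push_cast
    have hUc : ((U : (ZMod d)ˣ) : ZMod d) = (u : ZMod d) := ZMod.coe_unitOfCoprime u hu
    have hVc : ((V : (ZMod d)ˣ) : ZMod d) = (v : ZMod d) := ZMod.coe_unitOfCoprime v hv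
    rw [← hUc, ← hVc, hW]
    push_cast
    constructor
    · intro h
      calc (x p.2 : ZMod d) = (x p.2 : ZMod d) * V * (↑V⁻¹ : ZMod d) := by
            rw [mul_assoc, Units.mul_inv, mul_one]
        _ = (x p.1 : ZMod d) * U * (↑V⁻¹ : ZMod d) := by rw [h]
        _ = _ := by ring
    · intro h
      rw [h]
      calc (x p.1 : ZMod d) * U = (x p.1 : ZMod d) * U * ((↑V⁻¹ : ZMod d) * V) := by
            rw [Units.inv_mul, mul_one]
        _ = _ := by ring
  rw [h1, card_pairs_eq]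
  have h2 : ∑ t : ZMod d, cnt x d (t * (W : ZMod d)) ^ 2 = ∑ t : ZMod d, cnt x d t ^ 2 := by
    apply Fintype.sum_equiv (Units.mulRight W)
    intro t
    rfl
  have h3 : 2 * ∑ t : ZMod d, cnt x d t * cnt x d (t * (W : ZMod d))
      ≤ ∑ t : ZMod d, cnt x d t ^ 2 + ∑ t : ZMod d, cnt x d (t * (W : ZMod d)) ^ 2 := by
    rw [mul_sum, ← sum_add_distrib]
    apply sum_le_sum
    intro t _
    have := two_mul_le_add_sq (cnt x d t) (cnt x d (t * (W : ZMod d)))
    linarith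
  rw [h2] at h3
  rw [coll_eq_sum]
  omega

theorem coll_mul_le {ι κ : Type} [Fintype ι] [Fintype κ] (x : ι → ℕ) (y : κ → ℕ) {d : ℕ}
    (hd : 0 < d) (hy : ∀ j, (y j).Coprime d) :
    coll (fun p : ι × κ => x p.1 * y p.2) d ≤ coll x d * Fintype.card κ ^ 2 := by
  classical
  have h1 : coll (fun p : ι × κ => x p.1 * y p.2) d
      = ∑ q : κ × κ, (univ.filter
          (fun p : ι × ι => x p.1 * y q.1 ≡ x p.2 * y q.2 [MOD d])).card := by
    unfold coll
    simp only [card_filter]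
    rw [sum_comm]
    rw [← Fintype.sum_prod_type'
      (f := fun (p : ι × ι) (q : κ × κ) => if x p.1 * y q.1 ≡ x p.2 * y q.2 [MOD d] then 1 else 0)]
    apply Fintype.sum_equiv (Equiv.prodProdProdComm ι κ ι κ)
    rintro ⟨⟨i, k⟩, ⟨i', k'⟩⟩
    rfl
  rw [h1]
  calc ∑ q : κ × κ, (univ.filter
          (fun p : ι × ι => x p.1 * y q.1 ≡ x p.2 * y q.2 [MOD d])).card
      ≤ ∑ q : κ × κ, coll x d := sum_le_sum (fun q _ => card_filter_mul_le x hd (hy _) (hy _))
    _ = coll x d * Fintype.card κ ^ 2 := by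
        rw [sum_const, smul_eq_mul, card_univ, Fintype.card_prod]; ring

theorem coll_mul_le' {ι κ : Type} [Fintype ι] [Fintype κ] (x : ι → ℕ) (y : κ → ℕ) {d : ℕ}
    (hd : 0 < d) (hx : ∀ i, (x i).Coprime d) :
    coll (fun p : ι × κ => x p.1 * y p.2) d ≤ coll y d * Fintype.card ι ^ 2 := by
  have h := coll_mul_le y x hd hx
  refine le_trans (le_of_eq ?_) h
  unfold coll
  apply Finset.card_bij (fun p _ => (p.1.swap, p.2.swap))
  · rintro ⟨⟨i, k⟩, ⟨i', k'⟩⟩ hp
    simp only [mem_filter, mem_univ, true_and, Prod.swap] at hp ⊢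
    rw [mul_comm (y k), mul_comm (y k')]
    exact hp
  · rintro ⟨⟨i, k⟩, ⟨i', k'⟩⟩ _ ⟨⟨j, l⟩, ⟨j', l'⟩⟩ _ h
    simp only [Prod.swap, Prod.mk.injEq] at h ⊢
    tauto
  · rintro ⟨⟨i, k⟩, ⟨i', k'⟩⟩ hp
    refine ⟨((k, i), (k', i')), ?_, rfl⟩
    simp only [mem_filter, mem_univ, true_and] at hp ⊢
    rw [mul_comm (x k), mul_comm (x k')]
    exact hp

/-- `Good C S D`: for every `c ∈ C` there is a finite family of divisors of `S`, coprime to `c`,
with few collisions modulo every divisor `d ∈ D` of `c`. -/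
def Good (C : Set ℕ) (S : ℕ) (D : Set ℕ) : Prop :=
  ∀ c ∈ C, ∃ (ι : Type) (_ : Fintype ι) (_ : Nonempty ι) (x : ι → ℕ),
    (∀ i, x i ∣ S) ∧ (∀ i, (x i).Coprime c) ∧
    ∀ d ∈ D, d ∣ c → d ^ 3 * (coll x d) ^ 4 ≤ (Fintype.card ι) ^ 8

theorem good_mono {C : Set ℕ} {S : ℕ} {D D' : Set ℕ} (h : Good C S D) (hD : D' ⊆ D) :
    Good C S D' := by
  intro c hc
  obtain ⟨ι, i1, i2, x, h1, h2, h3⟩ := h c hc
  exact ⟨ι, i1, i2, x, h1, h2, fun d hd hdc => h3 d (hD hd) hdc⟩

theorem good_one (C : Set ℕ) : Good C 1 ∅ := by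
  intro c _
  exact ⟨Unit, inferInstance, inferInstance, fun _ => 1, fun _ => dvd_rfl,
    fun _ => Nat.coprime_one_left c, fun d hd => absurd hd (Set.notMem_empty d)⟩

theorem good_mul {C : Set ℕ} {S₁ S₂ : ℕ} {D₁ D₂ : Set ℕ} (hC : ∀ c ∈ C, 0 < c)
    (h₁ : Good C S₁ D₁) (h₂ : Good C S₂ D₂) : Good C (S₁ * S₂) (D₁ ∪ D₂) := by
  intro c hc
  obtain ⟨ι, i1, i2, x, hx1, hx2, hx3⟩ := h₁ c hc
  obtain ⟨κ, k1, k2, y, hy1, hy2, hy3⟩ := h₂ c hc
  refine ⟨ι × κ, inferInstance, inferInstance, fun p => x p.1 * y p.2,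
    fun p => mul_dvd_mul (hx1 p.1) (hy1 p.2), fun p => Nat.Coprime.mul_left (hx2 p.1) (hy2 p.2),
    ?_⟩
  intro d hd hdc
  have hd0 : 0 < d := Nat.pos_of_dvd_of_pos hdc (hC c hc)
  rcases hd with hd | hd
  · have h := coll_mul_le x y hd0 (fun j => Nat.Coprime.coprime_dvd_right hdc (hy2 j))
    calc d ^ 3 * (coll (fun p : ι × κ => x p.1 * y p.2) d) ^ 4
        ≤ d ^ 3 * (coll x d * Fintype.card κ ^ 2) ^ 4 := by gcongr
      _ = (d ^ 3 * (coll x d) ^ 4) * Fintype.card κ ^ 8 := by ring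
      _ ≤ Fintype.card ι ^ 8 * Fintype.card κ ^ 8 := by
          have := hx3 d hd hdc
          gcongr
      _ = Fintype.card (ι × κ) ^ 8 := by rw [Fintype.card_prod]; ring
  · have h := coll_mul_le' x y hd0 (fun j => Nat.Coprime.coprime_dvd_right hdc (hx2 j))
    calc d ^ 3 * (coll (fun p : ι × κ => x p.1 * y p.2) d) ^ 4
        ≤ d ^ 3 * (coll y d * Fintype.card ι ^ 2) ^ 4 := by gcongr
      _ = (d ^ 3 * (coll y d) ^ 4) * Fintype.card ι ^ 8 := by ring
      _ ≤ Fintype.card κ ^ 8 * Fintype.card ι ^ 8 := by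
          have := hy3 d hd hdc
          gcongr
      _ = Fintype.card (ι × κ) ^ 8 := by rw [Fintype.card_prod]; ring

theorem good_prod {C : Set ℕ} (hC : ∀ c ∈ C, 0 < c) {β : Type} [DecidableEq β] (s : Finset β)
    (S : β → ℕ) (D : β → Set ℕ) (h : ∀ b ∈ s, Good C (S b) (D b)) :
    Good C (∏ b ∈ s, S b) (⋃ b ∈ s, D b) := by
  induction s using Finset.induction_on with
  | empty =>
    simpa using good_one C
  | insert b s hb ih =>
    rw [prod_insert hb, Finset.set_biUnion_insert]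
    exact good_mul hC (h b (mem_insert_self b s)) (ih fun b' hb' => h b' (mem_insert_of_mem hb'))

end Vale.Agent.P012
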