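import Vale.Agent.P012.Coll

namespace Vale.Agent.P012

open Finset

theorem norm_geom_le {z : ℂ} {d J : ℕ} (hd : 0 < d) (hz : z ^ d = 1) (h1 : z ≠ 1) :
    ‖∑ n ∈ range J, z ^ (n + 1)‖ ≤ d := by
  have hn : ‖z‖ = 1 := Complex.norm_eq_one_of_pow_eq_one hz hd.ne'
  have e : ∑ n ∈ range J, z ^ (n + 1) = z * ∑ n ∈ range (J % d), z ^ n := by
    simp only [pow_succ']
    rw [← mul_sum]
    congr 1
    rw [geom_sum_eq h1, geom_sum_eq h1]
    congr 2
    conv_lhs => rw [← Nat.div_add_mod J d, pow_add, pow_mul, hz, one_pow, one_mul]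
  rw [e, norm_mul, hn, one_mul]
  calc ‖∑ n ∈ range (J % d), z ^ n‖ ≤ ∑ n ∈ range (J % d), ‖z ^ n‖ := norm_sum_le _ _
    _ = ((J % d : ℕ) : ℝ) := by simp [norm_pow, hn]
    _ ≤ d := by exact_mod_cast (Nat.mod_lt _ hd).le

theorem geom_full {z : ℂ} {d : ℕ} (hz : z ^ d = 1) :
    ∑ s ∈ range d, z ^ s = if z = 1 then (d : ℂ) else 0 := by
  split_ifs with h
  · rw [h]
    simp
  · rw [geom_sum_eq h, hz]
    simp

theorem sum_pow_eq {c : ℕ} {ζ : ℂ} (hζ : IsPrimitiveRoot ζ c) (m : ℕ) :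
    ∑ a ∈ range c, (ζ ^ a) ^ m = if c ∣ m then (c : ℂ) else 0 := by
  have h1 : ∀ a ∈ range c, (ζ ^ a) ^ m = (ζ ^ m) ^ a := by
    intro a _
    rw [← pow_mul, ← pow_mul, mul_comm]
  rw [sum_congr rfl h1, geom_full (by rw [← pow_mul, mul_comm, pow_mul, hζ.pow_eq_one, one_pow])]
  simp only [hζ.pow_eq_one_iff_dvd]

theorem pow_eq_iff {z : ℂ} {d : ℕ} (hd : 0 < d) (hz : IsPrimitiveRoot z d) (m n : ℕ) :
    z ^ m = z ^ n ↔ m ≡ n [MOD d] := by
  have h1 : ∀ m, z ^ m = z ^ (m % d) := by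
    intro m
    conv_lhs => rw [← Nat.div_add_mod m d, pow_add, pow_mul, hz.pow_eq_one, one_pow, one_mul]
  constructor
  · intro h
    rw [h1 m, h1 n] at h
    exact hz.pow_inj (Nat.mod_lt _ hd) (Nat.mod_lt _ hd) h
  · intro h
    rw [h1 m, h1 n]
    congr 1

/-- counting function on residues `0 ≤ s < d` -/
def cnt' {ι : Type} [Fintype ι] (x : ι → ℕ) (d s : ℕ) : ℕ :=
  (univ.filter (fun i : ι => x i % d = s)).card

theorem coll_eq_sum' {ι : Type} [Fintype ι] (x : ι → ℕ) {d : ℕ} (hd : 0 < d) :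
    coll x d = ∑ s ∈ range d, cnt' x d s ^ 2 := by
  classical
  have h1 : coll x d = ∑ i : ι, cnt' x d (x i % d) := by
    unfold coll cnt'
    rw [card_filter, Fintype.sum_prod_type]
    apply sum_congr rfl
    intro i _
    rw [card_filter]
    apply sum_congr rfl
    intro j _
    have : (x i ≡ x j [MOD d]) ↔ (x j % d = x i % d) := ⟨fun h => h.symm, fun h => h.symm⟩
    simp only [this]
  rw [h1, ← sum_fiberwise_of_maps_to (s := univ) (t := range d) (g := fun i => x i % d)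
    (fun i _ => mem_range.mpr (Nat.mod_lt _ hd))]
  apply sum_congr rfl
  intro s _
  rw [sum_congr rfl (g := fun _ => cnt' x d s)]
  · rw [sum_const, smul_eq_mul, sq]
    rfl
  · intro i hi
    rw [mem_filter] at hi
    rw [hi.2]

theorem norm_bilin_le {ι : Type} [Fintype ι] (x : ι → ℕ) {z : ℂ} {d : ℕ} (hd : 0 < d)
    (hz : IsPrimitiveRoot z d) :
    ‖∑ p : ι × ι, z ^ (x p.1 * x p.2)‖ ^ 2 ≤ d * (coll x d : ℝ) ^ 2 := by
  classical
  have hn : ‖z‖ = 1 := Complex.norm_eq_one_of_pow_eq_one hz.pow_eq_one hd.ne'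
  have hz0 : z ≠ 0 := by
    intro h
    rw [h, norm_zero] at hn
    exact zero_ne_one hn
  set g : ℕ → ℂ := fun s => ∑ j : ι, z ^ (s * x j) with hg
  have hG : ∑ p : ι × ι, z ^ (x p.1 * x p.2) = ∑ s ∈ range d, (cnt' x d s : ℂ) * g s := by
    rw [Fintype.sum_prod_type]
    have h1 : ∀ i : ι, ∑ j : ι, z ^ (x i * x j) = g (x i % d) := by
      intro i
      simp only [hg]
      apply sum_congr rfl
      intro j _
      rw [pow_eq_iff hd hz]
      exact Nat.ModEq.mul_right _ (Nat.mod_modEq _ _).symm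
    simp only [h1]
    rw [← sum_fiberwise_of_maps_to (s := univ) (t := range d) (g := fun i => x i % d)
      (fun i _ => mem_range.mpr (Nat.mod_lt _ hd))]
    apply sum_congr rfl
    intro s _
    rw [sum_congr rfl (g := fun _ => g s)]
    · rw [sum_const, nsmul_eq_mul]
      rfl
    · intro i hi
      rw [mem_filter] at hi
      rw [hi.2]
  have hP : ∑ s ∈ range d, ‖g s‖ ^ 2 = d * (coll x d : ℝ) := by
    have h2 : ((∑ s ∈ range d, ‖g s‖ ^ 2 : ℝ) : ℂ) = ((d * (coll x d : ℝ) : ℝ) : ℂ) := by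
      push_cast
      have h3 : ∀ s ∈ range d, ((‖g s‖ : ℂ)) ^ 2
          = ∑ p : ι × ι, (z ^ (x p.1) * (z⁻¹) ^ (x p.2)) ^ s := by
        intro s _
        rw [← Complex.mul_conj']
        simp only [hg]
        rw [map_sum, sum_mul_sum, Fintype.sum_prod_type]
        apply sum_congr rfl
        intro i _
        apply sum_congr rfl
        intro j _
        rw [map_pow, ← Complex.inv_eq_conj hn, mul_pow, ← pow_mul, ← pow_mul, mul_comm s (x i),
          mul_comm s (x j)]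
      rw [sum_congr rfl h3, sum_comm]
      have h4 : ∀ p : ι × ι, ∑ s ∈ range d, (z ^ (x p.1) * (z⁻¹) ^ (x p.2)) ^ s
          = if x p.1 ≡ x p.2 [MOD d] then (d : ℂ) else 0 := by
        intro p
        rw [geom_full]
        · have : (z ^ x p.1 * z⁻¹ ^ x p.2 = 1) ↔ x p.1 ≡ x p.2 [MOD d] := by
            rw [← pow_eq_iff hd hz, inv_pow, ← div_eq_mul_inv, div_eq_one_iff_eq (pow_ne_zero _ hz0)]
          simp only [this]
        · rw [mul_pow, ← pow_mul, ← pow_mul, mul_comm (x p.1), mul_comm (x p.2), pow_mul, pow_mul,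
            inv_pow, hz.pow_eq_one]
          simp
      rw [sum_congr rfl (fun p _ => h4 p), ← sum_filter, sum_const, nsmul_eq_mul]
      unfold coll
      ring
    exact_mod_cast h2
  have hC : (coll x d : ℝ) = ∑ s ∈ range d, (cnt' x d s : ℝ) ^ 2 := by
    rw [coll_eq_sum' x hd]
    push_cast
    rfl
  rw [hG]
  have h5 : ‖∑ s ∈ range d, (cnt' x d s : ℂ) * g s‖ ≤ ∑ s ∈ range d, (cnt' x d s : ℝ) * ‖g s‖ := by
    refine (norm_sum_le _ _).trans (le_of_eq ?_)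
    apply sum_congr rfl
    intro s _
    rw [norm_mul, Complex.norm_natCast]
  calc ‖∑ s ∈ range d, (cnt' x d s : ℂ) * g s‖ ^ 2
      ≤ (∑ s ∈ range d, (cnt' x d s : ℝ) * ‖g s‖) ^ 2 := by gcongr
    _ ≤ (∑ s ∈ range d, (cnt' x d s : ℝ) ^ 2) * ∑ s ∈ range d, ‖g s‖ ^ 2 :=
        sum_mul_sq_le_sq_mul_sq _ _ _
    _ = d * (coll x d : ℝ) ^ 2 := by
        rw [← hC, hP]
        ring

theorem card_order_le {c d : ℕ} {ζ : ℂ} (hζ : IsPrimitiveRoot ζ c) (hd : 0 < d) :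
    ((range c).filter (fun a => orderOf (ζ ^ a) = d)).card ≤ d := by
  classical
  have h1 : ((range c).filter (fun a => orderOf (ζ ^ a) = d)).card
      ≤ (Polynomial.nthRootsFinset d (1 : ℂ)).card := by
    apply card_le_card_of_injOn (fun a => ζ ^ a)
    · intro a ha
      rw [mem_coe, mem_filter] at ha
      rw [mem_coe, Polynomial.mem_nthRootsFinset hd, ← ha.2]
      exact pow_orderOf_eq_one _
    · intro a ha a' ha' h
      rw [mem_coe, mem_filter, mem_range] at ha ha'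
      exact hζ.pow_inj ha.1 ha'.1 h
  refine h1.trans ?_
  unfold Polynomial.nthRootsFinset
  exact (Multiset.toFinset_card_le _).trans (Polynomial.card_nthRoots _ _)

/-- the weight of a modulus -/
noncomputable def wt (J lo d : ℕ) : ℝ := if d ≤ lo then (d : ℝ) ^ 4 / (J : ℝ) ^ 4 else 1 / (d : ℝ) ^ 4

theorem wt_nonneg (J lo d : ℕ) : 0 ≤ wt J lo d := by
  unfold wt
  split_ifs <;> positivity

theorem sum_wt_le {J lo c : ℕ} (hlo : 4 ≤ lo) (hloJ : lo ^ 2 ≤ J) :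
    ∑ d ∈ Icc 1 c, (d : ℝ) * wt J lo d ≤ 5 / 16 := by
  have hJ : 16 ≤ J := by nlinarith
  have hJr : (16 : ℝ) ≤ J := by exact_mod_cast hJ
  have hlor : (4 : ℝ) ≤ lo := by exact_mod_cast hlo
  have hloJr : (lo : ℝ) ^ 2 ≤ J := by exact_mod_cast hloJ
  have h1 : ∑ d ∈ Icc 1 c, (d : ℝ) * wt J lo d
      ≤ ∑ d ∈ Icc 1 lo, (d : ℝ) ^ 5 / (J : ℝ) ^ 4 + ∑ d ∈ Ioc lo c, ((d : ℝ) ^ 2)⁻¹ := by
    have h2 : ∑ d ∈ Icc 1 c, (d : ℝ) * wt J lo d
        ≤ ∑ d ∈ Icc 1 lo ∪ Ioc lo c, (d : ℝ) * wt J lo d := by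
      apply sum_le_sum_of_subset_of_nonneg
      · intro d hd
        rw [mem_Icc] at hd
        rw [mem_union, mem_Icc, mem_Ioc]
        omega
      · intro d _ _
        exact mul_nonneg (Nat.cast_nonneg _) (wt_nonneg _ _ _)
    refine h2.trans ?_
    rw [sum_union]
    · apply add_le_add
      · apply sum_le_sum
        intro d hd
        rw [mem_Icc] at hd
        unfold wt
        rw [if_pos hd.2]
        apply le_of_eq
        ring
      · apply sum_le_sum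
        intro d hd
        rw [mem_Ioc] at hd
        unfold wt
        rw [if_neg (by omega)]
        have hd1 : (1 : ℝ) ≤ d := by exact_mod_cast (by omega : 1 ≤ d)
        rw [mul_one_div, ← one_div, div_le_div_iff₀ (by positivity) (by positivity)]
        have : (d : ℝ) ^ 3 * 1 ≤ (d : ℝ) ^ 3 * d := by gcongr
        nlinarith
    · rw [Finset.disjoint_left]
      intro d hd hd'
      rw [mem_Icc] at hd
      rw [mem_Ioc] at hd'
      omega
  have h3 : ∑ d ∈ Icc 1 lo, (d : ℝ) ^ 5 / (J : ℝ) ^ 4 ≤ 1 / 16 := by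
    calc ∑ d ∈ Icc 1 lo, (d : ℝ) ^ 5 / (J : ℝ) ^ 4
        ≤ ∑ d ∈ Icc 1 lo, (lo : ℝ) ^ 5 / (J : ℝ) ^ 4 := by
          apply sum_le_sum
          intro d hd
          rw [mem_Icc] at hd
          have : (d : ℝ) ≤ lo := by exact_mod_cast hd.2
          gcongr
      _ = ((lo : ℝ) ^ 2) ^ 3 / (J : ℝ) ^ 4 := by
          rw [sum_const, nsmul_eq_mul, Nat.card_Icc, Nat.add_sub_cancel]
          ring
      _ ≤ (J : ℝ) ^ 3 / (J : ℝ) ^ 4 := by gcongr
      _ = 1 / J := by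
          field_simp
      _ ≤ 1 / 16 := by
          apply one_div_le_one_div_of_le (by norm_num) hJr
  have h4 : ∑ d ∈ Ioc lo c, ((d : ℝ) ^ 2)⁻¹ ≤ 1 / 4 := by
    rcases Nat.lt_or_ge c lo with h | h
    · rw [Ioc_eq_empty (by omega), sum_empty]
      norm_num
    · refine (sum_Ioc_inv_sq_le_sub (by omega) h).trans ?_
      have h5 : (0 : ℝ) ≤ (c : ℝ)⁻¹ := by positivity
      have h6 : (lo : ℝ)⁻¹ ≤ 1 / 4 := by
        rw [← one_div]
        exact one_div_le_one_div_of_le (by norm_num) hlor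
      linarith
  linarith

theorem exists_sol {ι κ : Type} [Fintype ι] [Fintype κ] [Nonempty ι] [Nonempty κ]
    (x : ι → ℕ) (y : κ → ℕ) {c J lo mid : ℕ} (hc : 0 < c) (hlo : 4 ≤ lo) (hloJ : lo ^ 2 ≤ J)
    (hx : ∀ d, lo < d → d ≤ mid → d ^ 3 * (coll x d) ^ 4 ≤ (Fintype.card ι) ^ 8)
    (hy : ∀ d, d ∣ c → mid < d → d ^ 3 * (coll y d) ^ 4 ≤ (Fintype.card κ) ^ 8) :
    ∃ t : (Fin 4 → Fin J) × (Fin 16 → ι × ι) × (Fin 16 → κ × κ),
      c ∣ (∑ i, ((t.1 i).1 + 1)) + (∑ i, x (t.2.1 i).1 * x (t.2.1 i).2)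
        + (∑ i, y (t.2.2 i).1 * y (t.2.2 i).2) := by
  classical
  by_contra hcon
  push Not at hcon
  have hJ : 0 < J := by nlinarith
  obtain ⟨ζ, hζ⟩ : ∃ ζ : ℂ, IsPrimitiveRoot ζ c := ⟨_, Complex.isPrimitiveRoot_exp c hc.ne'⟩
  set T : ℂ → ℂ := fun z => ∑ n ∈ range J, z ^ (n + 1) with hT
  set G : ℂ → ℂ := fun z => ∑ p : ι × ι, z ^ (x p.1 * x p.2) with hG
  set H : ℂ → ℂ := fun z => ∑ p : κ × κ, z ^ (y p.1 * y p.2) with hH
  have hexp : ∀ z : ℂ, T z ^ 4 * G z ^ 16 * H z ^ 16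
      = ∑ t : (Fin 4 → Fin J) × (Fin 16 → ι × ι) × (Fin 16 → κ × κ),
        z ^ ((∑ i, ((t.1 i).1 + 1)) + (∑ i, x (t.2.1 i).1 * x (t.2.1 i).2)
        + (∑ i, y (t.2.2 i).1 * y (t.2.2 i).2)) := by
    intro z
    have hT' : T z = ∑ n : Fin J, z ^ (n.1 + 1) := by
      simp only [hT]
      rw [← Fin.sum_univ_eq_sum_range (fun n => z ^ (n + 1))]
    rw [hT']
    simp only [hG, hH]
    rw [Fintype.sum_pow, Fintype.sum_pow, Fintype.sum_pow]
    rw [Fintype.sum_prod_type]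
    simp only [Fintype.sum_prod_type (α₁ := Fin 16 → ι × ι)]
    rw [sum_mul_sum, sum_mul]
    apply sum_congr rfl
    intro n _
    rw [sum_mul]
    apply sum_congr rfl
    intro p _
    rw [mul_sum]
    apply sum_congr rfl
    intro q _
    rw [prod_pow_eq_pow_sum, prod_pow_eq_pow_sum, prod_pow_eq_pow_sum, ← pow_add, ← pow_add]
  have hzero : ∑ a ∈ range c, T (ζ ^ a) ^ 4 * G (ζ ^ a) ^ 16 * H (ζ ^ a) ^ 16 = 0 := by
    simp only [hexp]
    rw [sum_comm]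
    apply sum_eq_zero
    intro t _
    rw [sum_pow_eq hζ, if_neg (hcon t)]
  have hmem0 : 0 ∈ range c := mem_range.mpr hc
  rw [← add_sum_erase _ _ hmem0] at hzero
  set X : ℝ := (Fintype.card ι : ℝ) with hX
  set Y : ℝ := (Fintype.card κ : ℝ) with hY
  have hXpos : 0 < X := by
    rw [hX]
    exact_mod_cast Fintype.card_pos
  have hYpos : 0 < Y := by
    rw [hY]
    exact_mod_cast Fintype.card_pos
  set M : ℝ := (J : ℝ) ^ 4 * X ^ 32 * Y ^ 32 with hM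
  have hJr : (0 : ℝ) < J := by exact_mod_cast hJ
  have hMpos : 0 < M := by positivity
  have hmain : T (ζ ^ 0) ^ 4 * G (ζ ^ 0) ^ 16 * H (ζ ^ 0) ^ 16 = (M : ℂ) := by
    simp only [hT, hG, hH, pow_zero, one_pow, sum_const, card_range, card_univ, Fintype.card_prod,
      nsmul_eq_mul, mul_one]
    rw [hM, hX, hY]
    push_cast
    ring
  rw [hmain] at hzero
  have hle : M ≤ ∑ a ∈ (range c).erase 0,
      ‖T (ζ ^ a)‖ ^ 4 * ‖G (ζ ^ a)‖ ^ 16 * ‖H (ζ ^ a)‖ ^ 16 := by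
    have h1 : (M : ℂ) = - ∑ a ∈ (range c).erase 0,
        T (ζ ^ a) ^ 4 * G (ζ ^ a) ^ 16 * H (ζ ^ a) ^ 16 := eq_neg_of_add_eq_zero_left hzero
    have h2 : M = ‖(M : ℂ)‖ := by
      rw [Complex.norm_real, Real.norm_of_nonneg hMpos.le]
    rw [h2, h1, norm_neg]
    refine (norm_sum_le _ _).trans (le_of_eq ?_)
    apply sum_congr rfl
    intro a _
    rw [norm_mul, norm_mul, norm_pow, norm_pow, norm_pow]
  -- trivial bounds
  have hnorm : ∀ a, ‖ζ ^ a‖ = 1 := by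
    intro a
    rw [norm_pow, Complex.norm_eq_one_of_pow_eq_one hζ.pow_eq_one hc.ne', one_pow]
  have hTtriv : ∀ a, ‖T (ζ ^ a)‖ ≤ J := by
    intro a
    simp only [hT]
    refine (norm_sum_le _ _).trans (le_of_eq ?_)
    simp only [norm_pow (ζ ^ a), hnorm, one_pow, sum_const, card_range, nsmul_eq_mul, mul_one]
  have hGtriv : ∀ a, ‖G (ζ ^ a)‖ ≤ X ^ 2 := by
    intro a
    simp only [hG]
    refine (norm_sum_le _ _).trans (le_of_eq ?_)
    simp only [norm_pow (ζ ^ a), hnorm, one_pow, sum_const, card_univ, Fintype.card_prod,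
      nsmul_eq_mul, mul_one]
    rw [hX]
    push_cast
    ring
  have hHtriv : ∀ a, ‖H (ζ ^ a)‖ ≤ Y ^ 2 := by
    intro a
    simp only [hH]
    refine (norm_sum_le _ _).trans (le_of_eq ?_)
    simp only [norm_pow (ζ ^ a), hnorm, one_pow, sum_const, card_univ, Fintype.card_prod,
      nsmul_eq_mul, mul_one]
    rw [hY]
    push_cast
    ring
  have hgen : ∀ (d C : ℕ) (Z F : ℝ), 0 < d → 0 ≤ Z → 0 ≤ F → F ^ 2 ≤ d * (C : ℝ) ^ 2 →
      (d : ℝ) ^ 3 * (C : ℝ) ^ 4 ≤ Z ^ 8 → F ^ 16 ≤ Z ^ 32 * (1 / (d : ℝ) ^ 4) := by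
    intro d C Z F hd hZ hF h1 h2
    have hdr : (0 : ℝ) < d := by exact_mod_cast hd
    rw [mul_one_div, le_div_iff₀ (by positivity)]
    calc F ^ 16 * (d : ℝ) ^ 4 = (F ^ 2) ^ 8 * (d : ℝ) ^ 4 := by ring
      _ ≤ (d * (C : ℝ) ^ 2) ^ 8 * (d : ℝ) ^ 4 := by gcongr
      _ = ((d : ℝ) ^ 3 * (C : ℝ) ^ 4) ^ 4 := by ring
      _ ≤ (Z ^ 8) ^ 4 := by gcongr
      _ = Z ^ 32 := by ring
  have hterm : ∀ a ∈ (range c).erase 0,
      ‖T (ζ ^ a)‖ ^ 4 * ‖G (ζ ^ a)‖ ^ 16 * ‖H (ζ ^ a)‖ ^ 16 ≤ M * wt J lo (orderOf (ζ ^ a)) := by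
    intro a ha
    rw [mem_erase, mem_range] at ha
    set d := orderOf (ζ ^ a) with hd
    have hdc : d ∣ c := by
      apply orderOf_dvd_of_pow_eq_one
      rw [← pow_mul, mul_comm, pow_mul, hζ.pow_eq_one, one_pow]
    have hd0 : 0 < d := Nat.pos_of_dvd_of_pos hdc hc
    have hz1 : ζ ^ a ≠ 1 := by
      intro h
      rw [hζ.pow_eq_one_iff_dvd] at h
      have := Nat.le_of_dvd (by omega) h
      omega
    have hprim : IsPrimitiveRoot (ζ ^ a) d := IsPrimitiveRoot.orderOf _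
    have hTd := norm_geom_le (J := J) hd0 hprim.pow_eq_one hz1
    have hGd := norm_bilin_le x hd0 hprim
    have hHd := norm_bilin_le y hd0 hprim
    have hT0 := hTtriv a
    have hG0 := hGtriv a
    have hH0 := hHtriv a
    unfold wt
    split_ifs with hdl
    · calc ‖T (ζ ^ a)‖ ^ 4 * ‖G (ζ ^ a)‖ ^ 16 * ‖H (ζ ^ a)‖ ^ 16
          ≤ (d : ℝ) ^ 4 * (X ^ 2) ^ 16 * (Y ^ 2) ^ 16 := by gcongr
        _ = M * ((d : ℝ) ^ 4 / (J : ℝ) ^ 4) := by
            rw [hM]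
            field_simp
    · rcases Nat.lt_or_ge mid d with hm | hm
      · have h1 : ‖H (ζ ^ a)‖ ^ 16 ≤ Y ^ 32 * (1 / (d : ℝ) ^ 4) := by
          apply hgen d (coll y d) Y _ hd0 hYpos.le (norm_nonneg _) hHd
          rw [hY]
          exact_mod_cast hy d hdc hm
        calc ‖T (ζ ^ a)‖ ^ 4 * ‖G (ζ ^ a)‖ ^ 16 * ‖H (ζ ^ a)‖ ^ 16
            ≤ (J : ℝ) ^ 4 * (X ^ 2) ^ 16 * (Y ^ 32 * (1 / (d : ℝ) ^ 4)) := by gcongr
          _ = M * (1 / (d : ℝ) ^ 4) := by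
              rw [hM]
              ring
      · have h1 : ‖G (ζ ^ a)‖ ^ 16 ≤ X ^ 32 * (1 / (d : ℝ) ^ 4) := by
          apply hgen d (coll x d) X _ hd0 hXpos.le (norm_nonneg _) hGd
          rw [hX]
          exact_mod_cast hx d (by omega) hm
        calc ‖T (ζ ^ a)‖ ^ 4 * ‖G (ζ ^ a)‖ ^ 16 * ‖H (ζ ^ a)‖ ^ 16
            ≤ (J : ℝ) ^ 4 * (X ^ 32 * (1 / (d : ℝ) ^ 4)) * (Y ^ 2) ^ 16 := by gcongr
          _ = M * (1 / (d : ℝ) ^ 4) := by
              rw [hM]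
              ring
  have hsum : ∑ a ∈ (range c).erase 0, M * wt J lo (orderOf (ζ ^ a)) ≤ M * (5 / 16) := by
    rw [← mul_sum]
    apply mul_le_mul_of_nonneg_left _ hMpos.le
    have hmaps : ∀ a ∈ range c, orderOf (ζ ^ a) ∈ Icc 1 c := by
      intro a _
      have hdc : orderOf (ζ ^ a) ∣ c := by
        apply orderOf_dvd_of_pow_eq_one
        rw [← pow_mul, mul_comm, pow_mul, hζ.pow_eq_one, one_pow]
      rw [mem_Icc]
      exact ⟨Nat.pos_of_dvd_of_pos hdc hc, Nat.le_of_dvd hc hdc⟩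
    calc ∑ a ∈ (range c).erase 0, wt J lo (orderOf (ζ ^ a))
        ≤ ∑ a ∈ range c, wt J lo (orderOf (ζ ^ a)) := by
          apply sum_le_sum_of_subset_of_nonneg (erase_subset _ _)
          intro a _ _
          exact wt_nonneg _ _ _
      _ = ∑ d ∈ Icc 1 c, ∑ a ∈ (range c).filter (fun a => orderOf (ζ ^ a) = d),
            wt J lo (orderOf (ζ ^ a)) := (sum_fiberwise_of_maps_to hmaps _).symm
      _ ≤ ∑ d ∈ Icc 1 c, (d : ℝ) * wt J lo d := by
          apply sum_le_sum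
          intro d hd
          rw [mem_Icc] at hd
          rw [sum_congr rfl (g := fun _ => wt J lo d)]
          · rw [sum_const, nsmul_eq_mul]
            apply mul_le_mul_of_nonneg_right _ (wt_nonneg _ _ _)
            exact_mod_cast card_order_le hζ hd.1
          · intro a ha
            rw [mem_filter] at ha
            rw [ha.2]
      _ ≤ 5 / 16 := sum_wt_le hlo hloJ
  have hfin := hle.trans ((sum_le_sum hterm).trans hsum)
  linarith

theorem rich_of_families {J lo mid Ssm Sbig : ℕ} (hlo : 4 ≤ lo) (hloJ : lo ^ 2 ≤ J)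
    (hsmall : ∃ (ι : Type) (_ : Fintype ι) (_ : Nonempty ι) (x : ι → ℕ),
      (∀ i, x i ∣ Ssm) ∧ (∀ i, 0 < x i) ∧
      ∀ d, lo < d → d ≤ mid → d ^ 3 * (coll x d) ^ 4 ≤ (Fintype.card ι) ^ 8)
    (hbig : ∀ c, 1 ≤ c → c ≤ 2 ^ J → ∃ (ι : Type) (_ : Fintype ι) (_ : Nonempty ι) (x : ι → ℕ),
      (∀ i, x i ∣ Sbig) ∧ (∀ i, 0 < x i) ∧
      ∀ d, d ∣ c → mid < d → d ^ 3 * (coll x d) ^ 4 ≤ (Fintype.card ι) ^ 8) :
    Rich (J.factorial * Ssm ^ 2 * Sbig ^ 2) (2 ^ J) 36 := by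
  intro c hc1 hc2
  obtain ⟨ι, i1, i2, x, hx1, _, hx3⟩ := hsmall
  obtain ⟨κ, k1, k2, y, hy1, _, hy3⟩ := hbig c hc1 hc2
  obtain ⟨t, ht⟩ := exists_sol x y hc1 hlo hloJ hx3 hy3
  refine ⟨(univ : Finset (Fin 4)).val.map (fun i => (t.1 i).1 + 1)
    + (univ : Finset (Fin 16)).val.map (fun i => x (t.2.1 i).1 * x (t.2.1 i).2)
    + (univ : Finset (Fin 16)).val.map (fun i => y (t.2.2 i).1 * y (t.2.2 i).2), ?_, ?_, ?_, ?_⟩
  · rw [Multiset.card_add, Multiset.card_add, Multiset.card_map, Multiset.card_map,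
      Multiset.card_map]
    simp
  · intro s hs
    rw [Multiset.mem_add, Multiset.mem_add, Multiset.mem_map, Multiset.mem_map,
      Multiset.mem_map] at hs
    rcases hs with (⟨i, _, rfl⟩ | ⟨i, _, rfl⟩) | ⟨i, _, rfl⟩
    · rw [mul_assoc]
      exact Dvd.dvd.mul_right (Nat.dvd_factorial (by omega) (t.1 i).2) _
    · apply Dvd.dvd.mul_right
      apply Dvd.dvd.mul_left
      rw [sq]
      exact mul_dvd_mul (hx1 _) (hx1 _)
    · apply Dvd.dvd.mul_left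
      rw [sq]
      exact mul_dvd_mul (hy1 _) (hy1 _)
  · rw [Multiset.sum_add, Multiset.sum_add]
    have : 0 < ((univ : Finset (Fin 4)).val.map (fun i => (t.1 i).1 + 1)).sum := by
      change 0 < ∑ i : Fin 4, ((t.1 i).1 + 1)
      exact sum_pos (fun i _ => by omega) ⟨0, mem_univ _⟩
    omega
  · rw [Multiset.sum_add, Multiset.sum_add]
    exact ht

end Vale.Agent.P012
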