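import Vale.Agent.P012.Basic

namespace Vale.Agent.P012

theorem lower_aux {b K : ℕ} (hb : 0 < b) (hK : 1 ≤ K) :
    ∀ (j : ℕ) (t : Finset ℕ) (P : ℕ) (r : ℚ), t.card = j → t.card ≤ K → (∀ n ∈ t, 2 ≤ n) →
      1 ≤ P → (∃ z : ℤ, r * P = z) → r - ∑ n ∈ t, (1 : ℚ) / n = 1 / b →
      b ≤ (4 * K * P) ^ (2 ^ j) := by
  have hbq : (0 : ℚ) < b := by exact_mod_cast hb
  have hbinv : (0 : ℚ) < 1 / b := by positivity
  intro j
  induction j with
  | zero =>
    rintro t P r ht _ _ hP ⟨z, hz⟩ h
    have ht0 : t = ∅ := Finset.card_eq_zero.mp ht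
    rw [ht0, Finset.sum_empty, sub_zero] at h
    rw [h] at hz
    have hPq : (0 : ℚ) < P := by exact_mod_cast hP
    have hz0 : (0 : ℚ) < z := by
      rw [← hz]
      positivity
    have hz1 : (1 : ℚ) ≤ z := by
      have : 0 < z := by exact_mod_cast hz0
      exact_mod_cast this
    rw [← hz, one_div, inv_mul_eq_div, le_div_iff₀ hbq, one_mul] at hz1
    have h1 : b ≤ P := by exact_mod_cast hz1
    calc b ≤ P := h1
      _ ≤ 4 * K * P := Nat.le_mul_of_pos_left _ (by omega)
      _ = (4 * K * P) ^ (2 ^ 0) := by simp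
  | succ j ih =>
    rintro t P r ht htK ht2 hP ⟨z, hz⟩ h
    have hPq : (0 : ℚ) < P := by exact_mod_cast hP
    have hKP : 1 ≤ 4 * K * P := Nat.mul_pos (by omega) hP
    rcases Nat.lt_or_ge (2 * P) b with hbP | hbP
    swap
    · calc b ≤ 2 * P := hbP
        _ ≤ 4 * K * P := Nat.mul_le_mul_right _ (by omega)
        _ ≤ (4 * K * P) ^ (2 ^ (j + 1)) := Nat.le_self_pow (by positivity) _
    have hsum0 : 0 ≤ ∑ n ∈ t, (1 : ℚ) / n := Finset.sum_nonneg (fun n _ => by positivity)
    have hrpos : 0 < r := by linarith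
    have hz1 : (1 : ℚ) ≤ z := by
      have h1 : (0 : ℚ) < z := by
        rw [← hz]
        positivity
      have : 0 < z := by exact_mod_cast h1
      exact_mod_cast this
    have hr1 : 1 / (P : ℚ) ≤ r := by
      rw [div_le_iff₀ hPq, hz]
      exact hz1
    have hb2 : (1 : ℚ) / b ≤ 1 / (2 * P) := by
      apply one_div_le_one_div_of_le (by positivity)
      exact_mod_cast hbP.le
    have hs : 1 / (2 * (P : ℚ)) ≤ ∑ n ∈ t, (1 : ℚ) / n := by
      have : 1 / (P : ℚ) = 1 / (2 * P) + 1 / (2 * P) := by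
        field_simp
        norm_num
      linarith
    have hex : ∃ n ∈ t, n ≤ 2 * K * P := by
      by_contra hcon
      push Not at hcon
      have hle : ∑ n ∈ t, (1 : ℚ) / n ≤ t.card • (1 / ((2 * K * P : ℕ) + 1 : ℚ)) := by
        apply Finset.sum_le_card_nsmul
        intro n hn
        apply one_div_le_one_div_of_le (by positivity)
        exact_mod_cast hcon n hn
      rw [nsmul_eq_mul] at hle
      have h2 := hs.trans hle
      have hcK : (t.card : ℚ) ≤ K := by exact_mod_cast htK
      rw [mul_one_div, div_le_div_iff₀ (by positivity) (by positivity)] at h2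
      push_cast at h2
      nlinarith
    obtain ⟨n, hn, hnle⟩ := hex
    have hn2 := ht2 n hn
    have hnq : (0 : ℚ) < n := by exact_mod_cast (by omega : 0 < n)
    have hcard : (t.erase n).card = j := by
      rw [Finset.card_erase_of_mem hn, ht]
      rfl
    have h3 := ih (t.erase n) (P * n) (r - 1 / n) hcard (by omega)
      (fun m hm => ht2 m (Finset.mem_of_mem_erase hm)) (Nat.mul_pos hP (by omega))
      ⟨z * n - P, by
        push_cast
        rw [← hz]
        field_simp⟩ (by
        rw [← h, ← Finset.add_sum_erase t _ hn]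
        ring)
    calc b ≤ (4 * K * (P * n)) ^ (2 ^ j) := h3
      _ ≤ ((4 * K * P) ^ 2) ^ (2 ^ j) := by
          apply Nat.pow_le_pow_left
          calc 4 * K * (P * n) ≤ 4 * K * (P * (2 * K * P)) := by gcongr
            _ = 8 * (K * P) ^ 2 := by ring
            _ ≤ 16 * (K * P) ^ 2 := by gcongr; norm_num
            _ = (4 * K * P) ^ 2 := by ring
      _ = (4 * K * P) ^ (2 ^ (j + 1)) := by
          rw [← pow_mul]
          congr 1
          ring

theorem lower_bound {b : ℕ} (hb : 2 ≤ b) (s : Finset ℕ) (hs : ∀ n ∈ s, 2 ≤ n)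
    (h : ∑ n ∈ s, (1 : ℚ) / n = ((b : ℚ) - 1) / b) : b ≤ (4 * s.card) ^ (2 ^ s.card) := by
  have hbq : (2 : ℚ) ≤ b := by exact_mod_cast hb
  have hs0 : 1 ≤ s.card := by
    rw [Nat.one_le_iff_ne_zero, Ne, Finset.card_eq_zero]
    rintro rfl
    rw [Finset.sum_empty] at h
    have : (0 : ℚ) < ((b : ℚ) - 1) / b := by
      apply div_pos <;> linarith
    rw [← h] at this
    exact lt_irrefl _ this
  have h1 := lower_aux (b := b) (K := s.card) (by omega) hs0 s.card s 1 1 rfl le_rfl hs le_rfl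
    ⟨1, by norm_num⟩ (by
      rw [h]
      field_simp
      ring)
  simpa using h1

end Vale.Agent.P012
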