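import Vale.Agent.P012.Basic

namespace Vale.Agent.P012

/-- multisets of `j` positive integers with prescribed sum of reciprocals -/
def sols (j : ℕ) (r : ℚ) : Set (Multiset ℕ) :=
  {m | m.card = j ∧ (∀ n ∈ m, 1 ≤ n) ∧ (m.map (fun n : ℕ => (1 : ℚ) / n)).sum = r}

theorem sols_finite (j : ℕ) : ∀ r : ℚ, (sols j r).Finite := by
  induction j with
  | zero =>
    intro r
    apply (Set.finite_singleton (0 : Multiset ℕ)).subset
    intro m hm
    exact Multiset.card_eq_zero.mp hm.1
  | succ j ih =>
    intro r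
    rcases le_or_gt r 0 with hr | hr
    · apply Set.finite_empty.subset
      rintro m ⟨h1, h2, h3⟩
      exfalso
      obtain ⟨a, t, rfl⟩ : ∃ a t, m = a ::ₘ t := by
        obtain ⟨a, ha⟩ := Multiset.card_pos_iff_exists_mem.mp (by omega : 0 < m.card)
        exact ⟨a, m.erase a, (Multiset.cons_erase ha).symm⟩
      rw [Multiset.map_cons, Multiset.sum_cons] at h3
      have ha : 1 ≤ a := h2 a (Multiset.mem_cons_self a t)
      have ha' : (0 : ℚ) < 1 / a := by
        apply one_div_pos.mpr
        exact_mod_cast ha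
      have ht : 0 ≤ (t.map (fun n : ℕ => (1 : ℚ) / n)).sum := by
        apply Multiset.sum_nonneg
        intro x hx
        rw [Multiset.mem_map] at hx
        obtain ⟨n, _, rfl⟩ := hx
        positivity
      linarith
    · obtain ⟨N, hN⟩ := exists_nat_gt (((j : ℚ) + 1) / r)
      have hfin : (⋃ n ∈ Set.Iio (N + 1),
          (fun m : Multiset ℕ => n ::ₘ m) '' sols j (r - 1 / n)).Finite := by
        apply Set.Finite.biUnion (Set.finite_Iio _)
        intro n _
        exact (ih _).image _
      apply hfin.subset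
      rintro m ⟨h1, h2, h3⟩
      have hex : ∃ n ∈ m, n < N + 1 := by
        by_contra hcon
        push Not at hcon
        have h4 : (m.map (fun n : ℕ => (1 : ℚ) / n)).sum ≤
            (m.map (fun n : ℕ => (1 : ℚ) / n)).card • ((1 : ℚ) / (N + 1)) := by
          apply Multiset.sum_le_card_nsmul
          intro x hx
          rw [Multiset.mem_map] at hx
          obtain ⟨n, hn, rfl⟩ := hx
          have := hcon n hn
          have h5 : ((N : ℚ) + 1) ≤ n := by exact_mod_cast this
          exact one_div_le_one_div_of_le (by positivity) h5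
        rw [h3, Multiset.card_map, h1, nsmul_eq_mul, mul_one_div, le_div_iff₀ (by positivity)] at h4
        rw [div_lt_iff₀ hr] at hN
        push_cast at h4
        nlinarith
      obtain ⟨n, hn, hnN⟩ := hex
      simp only [Set.mem_iUnion]
      refine ⟨n, hnN, m.erase n, ⟨?_, ?_, ?_⟩, Multiset.cons_erase hn⟩
      · rw [Multiset.card_erase_of_mem hn, h1]
        rfl
      · intro a ha
        exact h2 a (Multiset.mem_of_mem_erase ha)
      · have h5 : (m.map (fun n : ℕ => (1 : ℚ) / n)).sum
            = 1 / (n : ℚ) + ((m.erase n).map (fun n : ℕ => (1 : ℚ) / n)).sum := by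
          conv_lhs => rw [← Multiset.cons_erase hn]
          rw [Multiset.map_cons, Multiset.sum_cons]
        rw [h3] at h5
        linarith

theorem exists_finset_of_UF {k : ℕ} {r : ℚ} (h : UF k r) (hr : r < 1) :
    ∃ s : Finset ℕ, s.card ≤ k ∧ (∀ n ∈ s, 2 ≤ n) ∧ ∑ n ∈ s, (1 : ℚ) / n = r := by
  classical
  set U : Set (Multiset ℕ) := ⋃ j ∈ Set.Iic k, sols j r with hU
  have hUfin : U.Finite := by
    apply Set.Finite.biUnion (Set.finite_Iic _)
    intro j _
    exact sols_finite j r
  have hmemU : ∀ m : Multiset ℕ, m ∈ U ↔ m.card ≤ k ∧ (∀ n ∈ m, 1 ≤ n) ∧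
      (m.map (fun n : ℕ => (1 : ℚ) / n)).sum = r := by
    intro m
    rw [hU]
    simp only [Set.mem_iUnion, Set.mem_Iic, sols, Set.mem_ofPred_eq]
    constructor
    · rintro ⟨j, hj, h1, h2, h3⟩
      exact ⟨by omega, h2, h3⟩
    · rintro ⟨h1, h2, h3⟩
      exact ⟨_, h1, rfl, h2, h3⟩
  have hUne : U.Nonempty := by
    obtain ⟨m, h1, h2, h3⟩ := h
    exact ⟨m, (hmemU m).mpr ⟨h1, h2, h3⟩⟩
  obtain ⟨m, hm, hmax⟩ := Set.exists_max_image U
    (fun m : Multiset ℕ => (m.map (fun n : ℕ => (1 : ℚ) / (n : ℚ) ^ 2)).sum) hUfin hUne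
  obtain ⟨h1, h2, h3⟩ := (hmemU m).mp hm
  have hnn : ∀ t : Multiset ℕ, 0 ≤ (t.map (fun n : ℕ => (1 : ℚ) / n)).sum := by
    intro t
    apply Multiset.sum_nonneg
    intro x hx
    rw [Multiset.mem_map] at hx
    obtain ⟨n, _, rfl⟩ := hx
    positivity
  have hnodup : m.Nodup := by
    rw [Multiset.nodup_iff_ne_cons_cons]
    intro n t hmt
    rw [hmt] at h1 h2 h3
    rw [Multiset.card_cons, Multiset.card_cons] at h1
    rw [Multiset.map_cons, Multiset.sum_cons, Multiset.map_cons, Multiset.sum_cons] at h3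
    have hn1 : 1 ≤ n := h2 n (Multiset.mem_cons_self _ _)
    have hnpos : (0 : ℚ) < n := by exact_mod_cast hn1
    have hn3 : 3 ≤ n := by
      have h4 := hnn t
      have h5 : (2 : ℚ) / n < 1 := by
        have : (2 : ℚ) / n = 1 / n + 1 / n := by ring
        linarith
      rw [div_lt_one hnpos] at h5
      have : 2 < n := by exact_mod_cast h5
      omega
    have ht1 : ∀ a ∈ t, 1 ≤ a := fun a ha =>
      h2 a (Multiset.mem_cons_of_mem (Multiset.mem_cons_of_mem ha))
    rcases Nat.even_or_odd' n with ⟨p, hp | hp⟩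
    · -- even case
      have hp2 : 2 ≤ p := by omega
      have hppos : (0 : ℚ) < p := by exact_mod_cast (by omega : 0 < p)
      have hnp : (n : ℚ) = 2 * p := by exact_mod_cast hp
      have hmem : (p ::ₘ t) ∈ U := by
        rw [hmemU]
        refine ⟨?_, ?_, ?_⟩
        · rw [Multiset.card_cons]
          omega
        · intro a ha
          rw [Multiset.mem_cons] at ha
          rcases ha with rfl | ha
          · omega
          · exact ht1 a ha
        · rw [Multiset.map_cons, Multiset.sum_cons, ← h3, hnp]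
          field_simp
          ring
      have h6 := hmax _ hmem
      simp only [hmt, Multiset.map_cons, Multiset.sum_cons] at h6
      rw [hnp] at h6
      have h7 : (1 : ℚ) / (2 * (p : ℚ)) ^ 2 = 1 / 4 * (1 / (p : ℚ) ^ 2) := by
        field_simp
        norm_num
      rw [h7] at h6
      have h8 : (0 : ℚ) < 1 / (p : ℚ) ^ 2 := by positivity
      linarith
    · -- odd case
      have hp1 : 1 ≤ p := by omega
      have hppos : (1 : ℚ) ≤ p := by exact_mod_cast hp1
      have hnp : (n : ℚ) = 2 * p + 1 := by exact_mod_cast hp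
      have hmem : ((p + 1) ::ₘ (n * (p + 1)) ::ₘ t) ∈ U := by
        rw [hmemU]
        refine ⟨?_, ?_, ?_⟩
        · rw [Multiset.card_cons, Multiset.card_cons]
          omega
        · intro a ha
          rw [Multiset.mem_cons, Multiset.mem_cons] at ha
          rcases ha with rfl | rfl | ha
          · omega
          · exact Nat.mul_pos (by omega) (by omega)
          · exact ht1 a ha
        · rw [Multiset.map_cons, Multiset.sum_cons, Multiset.map_cons, Multiset.sum_cons, ← h3]
          have e1 : (1 : ℚ) / ((p + 1 : ℕ) : ℚ) + 1 / ((n * (p + 1) : ℕ) : ℚ)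
              = 1 / (n : ℚ) + 1 / (n : ℚ) := by
            push_cast
            rw [hnp]
            field_simp
            ring
          linarith
      have h6 := hmax _ hmem
      simp only [hmt, Multiset.map_cons, Multiset.sum_cons] at h6
      have h7 : (1 : ℚ) / (n : ℚ) ^ 2 + 1 / (n : ℚ) ^ 2
          < 1 / ((p + 1 : ℕ) : ℚ) ^ 2 + 1 / ((n * (p + 1) : ℕ) : ℚ) ^ 2 := by
        push_cast
        rw [hnp]
        have e2 : (1 : ℚ) / (2 * p + 1) ^ 2 + 1 / (2 * p + 1) ^ 2
            = (2 * ((p : ℚ) + 1) ^ 2) / ((2 * p + 1) ^ 2 * (p + 1) ^ 2) := by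
          field_simp
          ring
        have e3 : (1 : ℚ) / ((p : ℚ) + 1) ^ 2 + 1 / ((2 * p + 1) * (p + 1)) ^ 2
            = ((2 * (p : ℚ) + 1) ^ 2 + 1) / ((2 * p + 1) ^ 2 * (p + 1) ^ 2) := by
          field_simp
        rw [e2, e3]
        apply div_lt_div_of_pos_right _ (by positivity)
        nlinarith
      linarith
  refine ⟨m.toFinset, ?_, ?_, ?_⟩
  · rw [Multiset.toFinset_card_of_nodup hnodup]
    exact h1
  · intro n hn
    rw [Multiset.mem_toFinset] at hn
    have hn1 := h2 n hn
    have hnpos : (0 : ℚ) < n := by exact_mod_cast hn1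
    have h5 : (m.map (fun n : ℕ => (1 : ℚ) / n)).sum
        = 1 / (n : ℚ) + ((m.erase n).map (fun n : ℕ => (1 : ℚ) / n)).sum := by
      conv_lhs => rw [← Multiset.cons_erase hn]
      rw [Multiset.map_cons, Multiset.sum_cons]
    have h6 := hnn (m.erase n)
    have h7 : (1 : ℚ) / n < 1 := by linarith
    rw [div_lt_one hnpos] at h7
    have : 1 < n := by exact_mod_cast h7
    omega
  · rw [← h3]
    change (m.toFinset.val.map (fun n : ℕ => (1 : ℚ) / n)).sum = _
    rw [Multiset.toFinset_val, Multiset.dedup_eq_self.mpr hnodup]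

end Vale.Agent.P012
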