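import Vale.Agent.P012.Basic

namespace Vale.Agent.P012

theorem uf_zero (k : ℕ) : UF k 0 := ⟨0, by simp, by simp, by simp⟩

theorem uf_mono {k l : ℕ} {r : ℚ} (h : UF k r) (hkl : k ≤ l) : UF l r := by
  obtain ⟨m, h1, h2, h3⟩ := h
  exact ⟨m, h1.trans hkl, h2, h3⟩

theorem uf_add {k l : ℕ} {r s : ℚ} (h : UF k r) (h' : UF l s) : UF (k + l) (r + s) := by
  obtain ⟨m, h1, h2, h3⟩ := h
  obtain ⟨m', h1', h2', h3'⟩ := h'
  refine ⟨m + m', ?_, ?_, ?_⟩
  · rw [Multiset.card_add]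
    omega
  · intro n hn
    rw [Multiset.mem_add] at hn
    exact hn.elim (h2 n) (h2' n)
  · rw [Multiset.map_add, Multiset.sum_add, h3, h3']

theorem uf_one {n : ℕ} (hn : 1 ≤ n) : UF 1 ((1 : ℚ) / n) := by
  refine ⟨{n}, by simp, by simpa using hn, by simp⟩

theorem uf_oneshot {S E k c w : ℕ} (hR : Rich S E k) (hc1 : 1 ≤ c) (hc2 : c ≤ E) (hw : 0 < w)
    (hSw : S ∣ w) : UF k ((c : ℚ) / w) := by
  obtain ⟨M, hM1, hM2, hM3, q, hq⟩ := hR c hc1 hc2
  have hq0 : 0 < q := by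
    rcases Nat.eq_zero_or_pos q with h | h
    · rw [h, mul_zero] at hq
      omega
    · exact h
  refine ⟨M.map (fun s => (w / s) * q), ?_, ?_, ?_⟩
  · rw [Multiset.card_map]
    exact hM1
  · intro n hn
    rw [Multiset.mem_map] at hn
    obtain ⟨s, hs, rfl⟩ := hn
    have hsw : s ∣ w := (hM2 s hs).trans hSw
    have : 0 < w / s := Nat.div_pos (Nat.le_of_dvd hw hsw) (Nat.pos_of_dvd_of_pos hsw hw)
    exact Nat.mul_pos this hq0
  · rw [Multiset.map_map]
    have hwr : (w : ℚ) ≠ 0 := by exact_mod_cast hw.ne'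
    have hqr : (q : ℚ) ≠ 0 := by exact_mod_cast hq0.ne'
    have h1 : M.map ((fun n : ℕ => (1 : ℚ) / n) ∘ fun s => (w / s) * q)
        = M.map (fun s : ℕ => (s : ℚ) * (1 / (w * q))) := by
      apply Multiset.map_congr rfl
      intro s hs
      have hsw : s ∣ w := (hM2 s hs).trans hSw
      have hs0 : (s : ℚ) ≠ 0 := by exact_mod_cast (Nat.pos_of_dvd_of_pos hsw hw).ne'
      simp only [Function.comp]
      rw [Nat.cast_mul, Nat.cast_div hsw hs0]
      field_simp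
    rw [h1, Multiset.sum_map_mul_right]
    have h2 : (M.map (fun s : ℕ => (s : ℚ))).sum = ((M.sum : ℕ) : ℚ) := by
      rw [Nat.cast_multiset_sum]
    rw [h2, hq]
    push_cast
    field_simp

theorem dirichlet {A ρ L : ℕ} (hρ : 1 ≤ ρ) (hL : 1 ≤ L) :
    ∃ q a' : ℕ, 1 ≤ q ∧ q ≤ L ∧
      |(q : ℤ) * A - (a' : ℤ) * ρ| * (L + 1) ≤ ρ := by
  obtain ⟨j, k, hk1, hk2, hk3⟩ :=
    Real.exists_int_int_abs_mul_sub_le ((A : ℝ) / ρ) (n := L) (by omega)
  have hρr : (0 : ℝ) < ρ := by exact_mod_cast hρ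
  have hLr : (0 : ℝ) < (L : ℝ) + 1 := by positivity
  have h1 : |(k : ℝ) * A - (j : ℝ) * ρ| * (L + 1) ≤ ρ := by
    have e : (k : ℝ) * A - (j : ℝ) * ρ = ((k : ℝ) * (A / ρ) - j) * ρ := by
      field_simp
    rw [e, abs_mul, abs_of_pos hρr]
    rw [le_div_iff₀ hLr] at hk3
    nlinarith
  have hj : 0 ≤ j := by
    by_contra hneg
    push Not at hneg
    have hj1 : (j : ℝ) ≤ -1 := by exact_mod_cast (by omega : j ≤ -1)
    have hk0 : (0 : ℝ) < k := by exact_mod_cast hk1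
    have hA : (0 : ℝ) ≤ A := Nat.cast_nonneg _
    have h2 : (ρ : ℝ) ≤ (k : ℝ) * A - (j : ℝ) * ρ := by nlinarith [mul_nonneg hk0.le hA]
    have h3 := le_abs_self ((k : ℝ) * A - (j : ℝ) * ρ)
    have hL1 : (1 : ℝ) ≤ L := by exact_mod_cast hL
    nlinarith
  obtain ⟨q, rfl⟩ := Int.eq_ofNat_of_zero_le hk1.le
  obtain ⟨a', rfl⟩ := Int.eq_ofNat_of_zero_le hj
  refine ⟨q, a', by omega, by omega, ?_⟩
  have h4 : ((|((q : ℕ) : ℤ) * (A : ℤ) - ((a' : ℕ) : ℤ) * (ρ : ℤ)| * ((L : ℤ) + 1) : ℤ) : ℝ)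
      ≤ ((ρ : ℤ) : ℝ) := by
    push_cast
    push_cast at h1
    exact h1
  exact_mod_cast h4

theorem phase2 {S L k₀ m : ℕ} (hR : Rich S (2 * L ^ 2) k₀) (hL : 2 ≤ L) (hS : 0 < S) :
    ∀ j A ρ : ℕ, 1 ≤ A → ρ < L ^ j → ρ ≤ 2 ^ m →
      UF (k₀ * j) ((ρ : ℚ) / ((A * 2 ^ m * S : ℕ) : ℚ)) := by
  intro j
  induction j with
  | zero =>
    intro A ρ _ h _
    have : ρ = 0 := by simpa using h
    rw [this, Nat.cast_zero, zero_div]
    exact uf_zero _
  | succ j ih =>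
    intro A ρ hA hρj hρm
    rcases Nat.eq_zero_or_pos ρ with h0 | hρ
    · rw [h0, Nat.cast_zero, zero_div]
      exact uf_zero _
    obtain ⟨q, a', hq1, hq2, hqa⟩ := dirichlet (A := A) hρ (by omega : 1 ≤ L)
    have hLL : L ≤ 2 * L ^ 2 := by nlinarith
    have hsmall : ∀ ρ' : ℕ, L * ρ' ≤ ρ → ρ' < L ^ j := by
      intro ρ' h
      rw [pow_succ] at hρj
      by_contra hc
      push Not at hc
      have : L * L ^ j ≤ L * ρ' := Nat.mul_le_mul_left _ hc
      have h2 : L ^ j * L = L * L ^ j := mul_comm _ _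
      omega
    rcases le_or_gt ((q : ℤ) * A - (a' : ℤ) * ρ) 0 with hr | hr
    · -- r ≤ 0
      obtain ⟨ρ', hρ'⟩ := Int.eq_ofNat_of_zero_le (neg_nonneg.mpr hr)
      have heq : q * A + ρ' = a' * ρ := by
        have : (q : ℤ) * A + ρ' = a' * ρ := by linarith
        exact_mod_cast this
      have habs : |(q : ℤ) * A - (a' : ℤ) * ρ| = ρ' := by
        rw [abs_of_nonpos hr, hρ']
      rw [habs] at hqa
      have hqa' : ρ' * (L + 1) ≤ ρ := by exact_mod_cast hqa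
      have ha' : 1 ≤ a' := by
        rcases Nat.eq_zero_or_pos a' with h | h
        · rw [h, zero_mul] at heq
          have : 0 < q * A := Nat.mul_pos hq1 hA
          omega
        · exact h
      have h1 := ih (A * a') ρ' (Nat.mul_pos hA ha') (hsmall ρ' (by nlinarith)) (by nlinarith)
      have hw0 : 0 < a' * 2 ^ m * S := by positivity
      have h2 := uf_oneshot hR (c := q) (w := a' * 2 ^ m * S) hq1 (hq2.trans hLL) hw0
        (Dvd.intro_left _ rfl)
      have h3 := uf_add h2 h1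
      have e : (ρ : ℚ) / ((A * 2 ^ m * S : ℕ) : ℚ)
          = (q : ℚ) / ((a' * 2 ^ m * S : ℕ) : ℚ) + (ρ' : ℚ) / ((A * a' * 2 ^ m * S : ℕ) : ℚ) := by
        have hAq : (A : ℚ) ≠ 0 := by exact_mod_cast (by omega : A ≠ 0)
        have haq : (a' : ℚ) ≠ 0 := by exact_mod_cast (by omega : a' ≠ 0)
        have hSq : (S : ℚ) ≠ 0 := by exact_mod_cast hS.ne'
        have heq' : (q : ℚ) * A + ρ' = a' * ρ := by exact_mod_cast heq
        push_cast
        field_simp
        linarith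
      rw [e]
      exact uf_mono h3 (by rw [Nat.mul_succ]; omega)
    · -- r > 0
      obtain ⟨r, hr'⟩ := Int.eq_ofNat_of_zero_le hr.le
      have hr0 : 0 < r := by omega
      have heq : q * A = a' * ρ + r := by
        have : (q : ℤ) * A = a' * ρ + r := by linarith
        exact_mod_cast this
      have habs : |(q : ℤ) * A - (a' : ℤ) * ρ| = r := by
        rw [abs_of_pos hr, hr']
      rw [habs] at hqa
      have hqa' : r * (L + 1) ≤ ρ := by exact_mod_cast hqa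
      have hrL : 0 < r * L := Nat.mul_pos hr0 (by omega)
      set i := Nat.log 2 (ρ / (r * L)) with hi
      have hdiv0 : ρ / (r * L) ≠ 0 := by
        have : 0 < ρ / (r * L) := Nat.div_pos (by nlinarith) hrL
        omega
      have hi1 : 2 ^ i ≤ ρ / (r * L) := Nat.pow_log_le_self 2 hdiv0
      have hi2 : ρ / (r * L) < 2 ^ (i + 1) := Nat.lt_pow_succ_log_self (by norm_num) _
      have hi1' : 2 ^ i * (r * L) ≤ ρ := (Nat.le_div_iff_mul_le hrL).mp hi1
      have hi2' : ρ < 2 ^ (i + 1) * (r * L) := (Nat.div_lt_iff_lt_mul hrL).mp hi2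
      have him : i ≤ m := by
        have h1 : 2 ^ i ≤ 2 ^ m := by
          calc 2 ^ i ≤ 2 ^ i * (r * L) := Nat.le_mul_of_pos_right _ hrL
            _ ≤ ρ := hi1'
            _ ≤ 2 ^ m := hρm
        exact (Nat.pow_le_pow_iff_right (by norm_num)).mp h1
      set D := 2 ^ i * r with hD
      have hD0 : 0 < D := Nat.mul_pos (by positivity) hr0
      set t := ρ / D with ht
      have ht1 : L ≤ t := by
        rw [ht, Nat.le_div_iff_mul_le hD0, hD]
        calc L * (2 ^ i * r) = 2 ^ i * (r * L) := by ring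
          _ ≤ ρ := hi1'
      have ht2 : t < 2 * L := by
        rw [ht, Nat.div_lt_iff_lt_mul hD0, hD]
        calc ρ < 2 ^ (i + 1) * (r * L) := hi2'
          _ = 2 * L * (2 ^ i * r) := by ring
      have hρ' : D * t + ρ % D = ρ := Nat.div_add_mod ρ D
      have hρ'lt : ρ % D < D := Nat.mod_lt _ hD0
      set ρ' := ρ % D with hρ'def
      have h1 := ih (A * (t * 2 ^ i * a' + 1)) ρ' (Nat.mul_pos hA (by omega)) (hsmall ρ' (by
          calc L * ρ' ≤ L * D := Nat.mul_le_mul_left _ hρ'lt.le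
            _ = 2 ^ i * (r * L) := by rw [hD]; ring
            _ ≤ ρ := hi1')) (by omega)
      have hw0 : 0 < (t * 2 ^ i * a' + 1) * 2 ^ (m - i) * S := by positivity
      have htq : t * q ≤ 2 * L ^ 2 := by
        calc t * q ≤ (2 * L) * L := Nat.mul_le_mul ht2.le hq2
          _ = 2 * L ^ 2 := by ring
      have h2 := uf_oneshot hR (c := t * q) (w := (t * 2 ^ i * a' + 1) * 2 ^ (m - i) * S)
        (Nat.mul_pos (by omega) hq1) htq hw0 (Dvd.intro_left _ rfl)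
      have h3 := uf_add h2 h1
      have e : (ρ : ℚ) / ((A * 2 ^ m * S : ℕ) : ℚ)
          = ((t * q : ℕ) : ℚ) / (((t * 2 ^ i * a' + 1) * 2 ^ (m - i) * S : ℕ) : ℚ)
            + (ρ' : ℚ) / ((A * (t * 2 ^ i * a' + 1) * 2 ^ m * S : ℕ) : ℚ) := by
        have hAq : (A : ℚ) ≠ 0 := by exact_mod_cast (by omega : A ≠ 0)
        have hSq : (S : ℚ) ≠ 0 := by exact_mod_cast hS.ne'
        have hqq : ((t : ℚ) * 2 ^ i * a' + 1) ≠ 0 := by positivity
        have heq' : (q : ℚ) * A = a' * ρ + r := by exact_mod_cast heq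
        have hρq : (2 : ℚ) ^ i * r * t + ρ' = ρ := by
          rw [hD] at hρ'
          exact_mod_cast hρ'
        have h2m : (2 : ℚ) ^ m = 2 ^ i * 2 ^ (m - i) := by
          rw [← pow_add]
          congr 1
          omega
        have hkey : (ρ : ℚ) * ((t : ℚ) * 2 ^ i * a' + 1) = t * q * 2 ^ i * A + ρ' := by
          have : (t : ℚ) * q * 2 ^ i * A = t * 2 ^ i * (q * A) := by ring
          rw [this, heq']
          linear_combination (-1 : ℚ) * hρq
        push_cast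
        rw [h2m]
        have h2i : (2 : ℚ) ^ i ≠ 0 := by positivity
        have h2mi : (2 : ℚ) ^ (m - i) ≠ 0 := by positivity
        rw [div_add_div _ _ (by positivity) (by positivity), div_eq_div_iff (by positivity)
          (by positivity)]
        linear_combination (A * 2 ^ i * (2 ^ (m - i)) ^ 2 * S ^ 2 * ((t : ℚ) * 2 ^ i * a' + 1)) * hkey
      rw [e]
      exact uf_mono h3 (by rw [Nat.mul_succ]; omega)

theorem phase1 {S L k₀ m j : ℕ} (hR : Rich S (2 * L ^ 2) k₀) (hL : 2 ≤ L) (hS : 0 < S)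
    (hj : 2 ^ m ≤ L ^ j) {A : ℕ} (hA : 1 ≤ A) (hLA : L * A ≤ 2 ^ m) :
    ∀ i ρ : ℕ, ρ < L ^ (i + 1) * A → ρ ≤ L * 2 ^ m * A →
      UF (k₀ * (i + j)) ((ρ : ℚ) / ((A * 2 ^ m * S : ℕ) : ℚ)) := by
  have hbase : ∀ i ρ : ℕ, ρ < L * A →
      UF (k₀ * (i + j)) ((ρ : ℚ) / ((A * 2 ^ m * S : ℕ) : ℚ)) := by
    intro i ρ h
    exact uf_mono (phase2 hR hL hS j A ρ hA (by omega) (by omega))
      (Nat.mul_le_mul_left _ (by omega))
  intro i
  induction i with
  | zero =>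
    intro ρ h1 _
    apply hbase
    simpa using h1
  | succ i ih =>
    intro ρ h1 h2
    rcases Nat.lt_or_ge ρ (L * A) with h | h
    · exact hbase _ _ h
    have hLA0 : 0 < L * A := Nat.mul_pos (by omega) hA
    set e := Nat.log 2 (ρ / (L * A)) with he
    have hdiv0 : ρ / (L * A) ≠ 0 := by
      have : 0 < ρ / (L * A) := Nat.div_pos h hLA0
      omega
    have he1 : 2 ^ e ≤ ρ / (L * A) := Nat.pow_log_le_self 2 hdiv0
    have he2 : ρ / (L * A) < 2 ^ (e + 1) := Nat.lt_pow_succ_log_self (by norm_num) _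
    have he1' : 2 ^ e * (L * A) ≤ ρ := (Nat.le_div_iff_mul_le hLA0).mp he1
    have he2' : ρ < 2 ^ (e + 1) * (L * A) := (Nat.div_lt_iff_lt_mul hLA0).mp he2
    have hem : e ≤ m := by
      have h3 : 2 ^ e * (L * A) ≤ 2 ^ m * (L * A) := by
        calc 2 ^ e * (L * A) ≤ ρ := he1'
          _ ≤ L * 2 ^ m * A := h2
          _ = 2 ^ m * (L * A) := by ring
      exact (Nat.pow_le_pow_iff_right (by norm_num)).mp (Nat.le_of_mul_le_mul_right h3 hLA0)
    set D := 2 ^ e * A with hD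
    have hD0 : 0 < D := Nat.mul_pos (by positivity) hA
    set c := ρ / D with hc
    have hc1 : L ≤ c := by
      rw [hc, Nat.le_div_iff_mul_le hD0, hD]
      calc L * (2 ^ e * A) = 2 ^ e * (L * A) := by ring
        _ ≤ ρ := he1'
    have hc2 : c < 2 * L := by
      rw [hc, Nat.div_lt_iff_lt_mul hD0, hD]
      calc ρ < 2 ^ (e + 1) * (L * A) := he2'
        _ = 2 * L * (2 ^ e * A) := by ring
    have hρ' : D * c + ρ % D = ρ := Nat.div_add_mod ρ D
    have hρ'lt : ρ % D < D := Nat.mod_lt _ hD0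
    set ρ' := ρ % D with hρ'def
    have hρ'2 : ρ' < L ^ (i + 1) * A := by
      have h4 : L * ρ' < L * (L ^ (i + 1) * A) := by
        calc L * ρ' < L * D := Nat.mul_lt_mul_of_pos_left hρ'lt (by omega)
          _ = 2 ^ e * (L * A) := by rw [hD]; ring
          _ ≤ ρ := he1'
          _ < L ^ (i + 1 + 1) * A := h1
          _ = L * (L ^ (i + 1) * A) := by ring
      exact lt_of_mul_lt_mul_left h4 (Nat.zero_le _)
    have h5 := ih ρ' hρ'2 (by omega)
    have hw0 : 0 < 2 ^ (m - e) * S := by positivity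
    have h6 := uf_oneshot hR (c := c) (w := 2 ^ (m - e) * S) (by omega) (by nlinarith) hw0
      (Dvd.intro_left _ rfl)
    have h7 := uf_add h6 h5
    have heq : (ρ : ℚ) / ((A * 2 ^ m * S : ℕ) : ℚ)
        = (c : ℚ) / ((2 ^ (m - e) * S : ℕ) : ℚ) + (ρ' : ℚ) / ((A * 2 ^ m * S : ℕ) : ℚ) := by
      have hAq : (A : ℚ) ≠ 0 := by exact_mod_cast (by omega : A ≠ 0)
      have hSq : (S : ℚ) ≠ 0 := by exact_mod_cast hS.ne'
      have hρq : (2 : ℚ) ^ e * A * c + ρ' = ρ := by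
        rw [hD] at hρ'
        exact_mod_cast hρ'
      have h2m : (2 : ℚ) ^ m = 2 ^ e * 2 ^ (m - e) := by
        rw [← pow_add]
        congr 1
        omega
      push_cast
      rw [h2m, ← hρq]
      field_simp
    rw [heq]
    refine uf_mono h7 ?_
    calc k₀ + k₀ * (i + j) = k₀ * (i + 1 + j) := by ring
      _ ≤ _ := le_rfl

theorem greedy_step {ρ Q X S : ℕ} (hX : ρ * X < Q) (hlt : Q < ρ * S) :
    ∃ n ρ' : ℕ, X + 1 ≤ n ∧ n ≤ S ∧ ρ' < ρ ∧ ρ' * (X * (X + 1)) < n * Q ∧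
      (ρ : ℚ) / Q = 1 / n + (ρ' : ℚ) / ((n * Q : ℕ) : ℚ) := by
  have hρ : 0 < ρ := by
    rcases Nat.eq_zero_or_pos ρ with h | h
    · rw [h] at hlt
      omega
    · exact h
  have hQ : 0 < Q := by omega
  obtain ⟨n0, hn0⟩ : ∃ n0, n0 = (Q - 1) / ρ := ⟨_, rfl⟩
  have h1 : n0 * ρ ≤ Q - 1 := by
    rw [hn0]
    exact Nat.div_mul_le_self _ _
  have h2 : Q - 1 < (n0 + 1) * ρ := by
    rw [hn0, mul_comm]
    exact Nat.lt_mul_div_succ _ hρ
  have h1' : n0 * ρ < Q := by omega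
  have h2' : Q ≤ (n0 + 1) * ρ := by omega
  have hXn : X ≤ n0 := by
    by_contra hc
    push Not at hc
    have : (n0 + 1) * ρ ≤ X * ρ := Nat.mul_le_mul_right _ hc
    have h3 : X * ρ = ρ * X := mul_comm _ _
    omega
  have hnS : n0 < S := by
    by_contra hc
    push Not at hc
    have : S * ρ ≤ n0 * ρ := Nat.mul_le_mul_right _ hc
    have h3 : S * ρ = ρ * S := mul_comm _ _
    omega
  obtain ⟨ρ', hρ'⟩ : ∃ ρ', ρ' = (n0 + 1) * ρ - Q := ⟨_, rfl⟩
  have heq : ρ' + Q = (n0 + 1) * ρ := by omega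
  refine ⟨n0 + 1, ρ', by omega, hnS, ?_, ?_, ?_⟩
  · have : (n0 + 1) * ρ = n0 * ρ + ρ := by ring
    omega
  · have h3 : ρ' * n0 < Q := by
      have h4 : ρ' * n0 + Q * n0 = (n0 + 1) * (n0 * ρ) := by
        rw [← add_mul, heq]
        ring
      have h5 : (n0 + 1) * (n0 * ρ) < (n0 + 1) * Q := Nat.mul_lt_mul_of_pos_left h1' (by omega)
      have h6 : (n0 + 1) * Q = Q * n0 + Q := by ring
      omega
    calc ρ' * (X * (X + 1)) ≤ ρ' * (n0 * (n0 + 1)) := by gcongr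
      _ = (n0 + 1) * (ρ' * n0) := by ring
      _ < (n0 + 1) * Q := Nat.mul_lt_mul_of_pos_left h3 (by omega)
  · have hQq : (Q : ℚ) ≠ 0 := by exact_mod_cast hQ.ne'
    have hnq : ((n0 : ℚ) + 1) ≠ 0 := by positivity
    have heq' : (ρ' : ℚ) + Q = (n0 + 1) * ρ := by exact_mod_cast heq
    push_cast
    field_simp
    linarith

theorem phase0 {S b K : ℕ}
    (hfin : ∀ ρ Q : ℕ, 0 < Q → Q ≤ b * S ^ 2 → ρ * S ≤ Q → UF K ((ρ : ℚ) / Q)) :
    ∀ i X ρ Q : ℕ, 0 < Q → ρ ≤ b → Q ≤ b * S ^ 2 → ρ * X < Q → S ≤ X ^ (2 ^ i) →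
      UF (i + K) ((ρ : ℚ) / Q) := by
  intro i
  induction i with
  | zero =>
    intro X ρ Q hQ _ hQb hX hS
    rw [pow_zero, pow_one] at hS
    have h1 : ρ * S ≤ Q := by
      have : ρ * S ≤ ρ * X := Nat.mul_le_mul_left _ hS
      omega
    exact uf_mono (hfin ρ Q hQ hQb h1) (by omega)
  | succ i ih =>
    intro X ρ Q hQ hρ hQb hX hS
    rcases Nat.lt_or_ge Q (ρ * S) with h | h
    swap
    · exact uf_mono (hfin ρ Q hQ hQb h) (by omega)
    obtain ⟨n, ρ', hn1, hn2, hρ', hX', he⟩ := greedy_step hX h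
    have hn0 : 0 < n := by omega
    have h1 := ih (X ^ 2) ρ' (n * Q) (Nat.mul_pos hn0 hQ) (by omega) (by
        calc n * Q ≤ S * (ρ * S) := Nat.mul_le_mul hn2 h.le
          _ ≤ S * (b * S) := by gcongr
          _ = b * S ^ 2 := by ring) (by
        refine lt_of_le_of_lt ?_ hX'
        apply Nat.mul_le_mul_left
        nlinarith) (by
        rw [← pow_mul]
        calc S ≤ X ^ (2 ^ (i + 1)) := hS
          _ = X ^ (2 * 2 ^ i) := by rw [pow_succ, mul_comm])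
    have h2 := uf_add (uf_one (n := n) (by omega)) h1
    rw [he]
    exact uf_mono h2 (by omega)

theorem uf_of_rich {S L k₀ m h j a b : ℕ} (hR : Rich S (2 * L ^ 2) k₀) (hL : 2 ≤ L) (hS : 0 < S)
    (hSh : S ≤ 2 ^ (2 ^ h)) (hm : L * b * S ^ 2 ≤ 2 ^ m) (hj : 2 ^ m ≤ L ^ j) (_ha : 1 ≤ a)
    (hab : a < b) : UF (h + 3 + k₀ * (2 * j + 4)) ((a : ℚ) / b) := by
  have hfin : ∀ ρ Q : ℕ, 0 < Q → Q ≤ b * S ^ 2 → ρ * S ≤ Q →
      UF (k₀ * (j + 1 + j)) ((ρ : ℚ) / Q) := by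
    intro ρ Q hQ hQb hρ
    have hLA : L * Q ≤ 2 ^ m := by
      calc L * Q ≤ L * (b * S ^ 2) := Nat.mul_le_mul_left _ hQb
        _ = L * b * S ^ 2 := by ring
        _ ≤ 2 ^ m := hm
    have h1 : ρ * 2 ^ m * S ≤ 2 ^ m * Q := by
      calc ρ * 2 ^ m * S = 2 ^ m * (ρ * S) := by ring
        _ ≤ 2 ^ m * Q := Nat.mul_le_mul_left _ hρ
    have h2 := phase1 hR hL hS hj hQ hLA (j + 1) (ρ * 2 ^ m * S) (by
        calc ρ * 2 ^ m * S ≤ 2 ^ m * Q := h1
          _ ≤ L ^ j * Q := Nat.mul_le_mul_right _ hj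
          _ < L ^ (j + 1 + 1) * Q := by
              apply Nat.mul_lt_mul_of_pos_right _ hQ
              exact Nat.pow_lt_pow_right (by omega) (by omega)) (by
        calc ρ * 2 ^ m * S ≤ 2 ^ m * Q := h1
          _ ≤ L * (2 ^ m * Q) := Nat.le_mul_of_pos_left _ (by omega)
          _ = L * 2 ^ m * Q := by ring)
    have he : (ρ : ℚ) / Q = ((ρ * 2 ^ m * S : ℕ) : ℚ) / ((Q * 2 ^ m * S : ℕ) : ℚ) := by
      have hQq : (Q : ℚ) ≠ 0 := by exact_mod_cast hQ.ne'
      have hSq : (S : ℚ) ≠ 0 := by exact_mod_cast hS.ne'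
      push_cast
      field_simp
    rw [he]
    exact h2
  have hb : 0 < b := by omega
  have hbS : b ≤ b * S ^ 2 := Nat.le_mul_of_pos_right _ (by positivity)
  rcases Nat.lt_or_ge b (a * S) with hc | hc
  · obtain ⟨n, ρ', hn1, hn2, hρ', hX', he⟩ := greedy_step (X := 1) (by omega) hc
    have hn0 : 0 < n := by omega
    have h1 := phase0 hfin h 2 ρ' (n * b) (Nat.mul_pos hn0 hb) (by omega) (by
        calc n * b ≤ S * b := Nat.mul_le_mul_right _ hn2
          _ = b * S := mul_comm _ _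
          _ ≤ b * S ^ 2 := by
              apply Nat.mul_le_mul_left
              nlinarith) (by simpa using hX') hSh
    have h2 := uf_add (uf_one (n := n) (by omega)) h1
    rw [he]
    refine uf_mono h2 ?_
    have : k₀ * (j + 1 + j) ≤ k₀ * (2 * j + 4) := Nat.mul_le_mul_left _ (by omega)
    omega
  · refine uf_mono (hfin a b hb hbS hc) ?_
    have : k₀ * (j + 1 + j) ≤ k₀ * (2 * j + 4) := Nat.mul_le_mul_left _ (by omega)
    omega

end Vale.Agent.P012
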