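import Vale.Agent.P012.Chain
import Vale.Agent.P012.Fourier
import Vale.Agent.P012.Reduction
import Vale.Agent.P012.Pairing
import Vale.Agent.P012.LowerBound

namespace Vale.Agent.P012

theorem key {J : ℕ} (hJ : 2 ^ 16 ≤ Nat.log 2 J) :
    ∃ S, 0 < S ∧ S ≤ 2 ^ (2500000 * Nat.log 2 J * J) ∧ Rich S (2 ^ J) 36 := by
  set Λ := Nat.log 2 J with hΛ
  have hJ0 : J ≠ 0 := by
    rintro rfl
    rw [Nat.log_zero_right] at hΛ
    omega
  have h1 : 2 ^ Λ ≤ J := Nat.pow_log_le_self 2 hJ0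
  have h2 : J < 2 ^ (Λ + 1) := Nat.lt_pow_succ_log_self (by norm_num) J
  have hlin := lin_le_two_pow (n := Λ) (by omega)
  obtain ⟨Sb, hb1, hb2, hb3⟩ := big_family (by omega) h1 h2
  obtain ⟨Ss, hs1, hs2, hs3⟩ := small_family hJ
  refine ⟨J.factorial * Ss ^ 2 * Sb ^ 2, by positivity, ?_, ?_⟩
  · have hf : J.factorial ≤ 2 ^ (2 * Λ * J) := by
      calc J.factorial ≤ J ^ J := Nat.factorial_le_pow J
        _ ≤ (2 ^ (Λ + 1)) ^ J := Nat.pow_le_pow_left h2.le J
        _ = 2 ^ ((Λ + 1) * J) := by rw [pow_mul]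
        _ ≤ 2 ^ (2 * Λ * J) := by
            apply Nat.pow_le_pow_right (by norm_num)
            apply Nat.mul_le_mul_right
            omega
    calc J.factorial * Ss ^ 2 * Sb ^ 2
        ≤ 2 ^ (2 * Λ * J) * (2 ^ (1175552000 * Λ * Λ)) ^ 2 * (2 ^ (1100000 * Λ * J)) ^ 2 := by
          gcongr
      _ = 2 ^ (2 * Λ * J + 235110400 * Λ * (10 * Λ) + 2200000 * Λ * J) := by
          rw [← pow_mul, ← pow_mul, ← pow_add, ← pow_add]
          congr 1
          ring
      _ ≤ 2 ^ (2500000 * Λ * J) := by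
          apply Nat.pow_le_pow_right (by norm_num)
          have h3 : 10000 * Λ ≤ J := hlin.trans h1
          nlinarith [Nat.zero_le (Λ * J), Nat.mul_le_mul_left Λ h3]
  · apply rich_of_families (lo := 2 ^ (64 * (Λ / 128))) (mid := 2 ^ (1024 * Λ))
    · calc 4 = 2 ^ 2 := by norm_num
        _ ≤ 2 ^ (64 * (Λ / 128)) := Nat.pow_le_pow_right (by norm_num) (by omega)
    · rw [← pow_mul]
      refine le_trans (Nat.pow_le_pow_right (by norm_num) ?_) h1
      omega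
    · obtain ⟨ι, i1, i2, x, hx1, hx2, hx3⟩ := hs3 _ rfl
      refine ⟨ι, i1, i2, x, hx1, fun i => Nat.pos_of_dvd_of_pos (hx1 i) hs1, ?_⟩
      intro d hd1 hd2
      apply hx3 d ⟨hd1, hd2⟩
      exact Nat.dvd_factorial (lt_of_le_of_lt (Nat.zero_le _) hd1) hd2
    · intro c hc1 hc2
      obtain ⟨ι, i1, i2, x, hx1, hx2, hx3⟩ := hb3 c ⟨hc1, hc2⟩
      refine ⟨ι, i1, i2, x, hx1, fun i => Nat.pos_of_dvd_of_pos (hx1 i) hb1, ?_⟩
      intro d hdc hd
      exact hx3 d ⟨hd, (Nat.le_of_dvd hc1 hdc).trans hc2⟩ hdc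

theorem lin_two_pow_big {l : ℕ} (hl : 65556 ≤ l) : 2 ^ 65536 * l ≤ 2 ^ l := by
  obtain ⟨n, rfl⟩ : ∃ n, l = 65536 + n := ⟨l - 65536, by omega⟩
  have h := lin_le_two_pow (n := n) (by omega)
  rw [pow_add]
  apply Nat.mul_le_mul_left
  omega

theorem upper_UF {a b : ℕ} (hb : 65556 ≤ Nat.log 2 (Nat.log 2 b)) (ha : 1 ≤ a) (hab : a < b) :
    UF (2400000000 * Nat.log 2 (Nat.log 2 b)) ((a : ℚ) / b) := by
  set β := Nat.log 2 b with hβ
  set l := Nat.log 2 β with hl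
  have hβ0 : β ≠ 0 := by
    intro h
    rw [h, Nat.log_zero_right] at hl
    omega
  have hβ1 : 2 ^ l ≤ β := Nat.pow_log_le_self 2 hβ0
  have hβ2 : β < 2 ^ (l + 1) := Nat.lt_pow_succ_log_self (by norm_num) β
  have hb2 : b < 2 ^ (β + 1) := Nat.lt_pow_succ_log_self (by norm_num) b
  have hbig := lin_two_pow_big hb
  -- the parameter J'
  obtain ⟨J', hJ'⟩ : ∃ J', J' = β / l := ⟨_, rfl⟩
  have hJ1 : 2 ^ 65536 ≤ J' := by
    rw [hJ', Nat.le_div_iff_mul_le (by omega)]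
    exact hbig.trans hβ1
  have hJ2 : J' * l ≤ β := by
    rw [hJ']
    exact Nat.div_mul_le_self _ _
  have hJ3 : β < (J' + 1) * l := by
    rw [hJ', mul_comm]
    exact Nat.lt_mul_div_succ _ (by omega)
  have hJ'1 : 1 ≤ J' := le_trans Nat.one_le_two_pow hJ1
  have hJb : 2 * J' + 1 ≤ β := by
    calc 2 * J' + 1 ≤ J' * 3 := by omega
      _ ≤ J' * l := Nat.mul_le_mul_left _ (by omega)
      _ ≤ β := hJ2
  have hlog1 : 2 ^ 16 ≤ Nat.log 2 (2 * J' + 1) := by
    apply Nat.le_log_of_pow_le (by norm_num)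
    have : (2 : ℕ) ^ 2 ^ 16 = 2 ^ 65536 := by norm_num
    omega
  have hlog2 : Nat.log 2 (2 * J' + 1) ≤ l := Nat.log_mono_right hJb
  obtain ⟨S, hS1, hS2, hS3⟩ := key hlog1
  have hS4 : S ≤ 2 ^ (7500000 * β) := by
    refine hS2.trans (Nat.pow_le_pow_right (by norm_num) ?_)
    calc 2500000 * Nat.log 2 (2 * J' + 1) * (2 * J' + 1)
        ≤ 2500000 * l * (2 * J' + 1) := by gcongr
      _ = 2500000 * (2 * (J' * l) + l) := by ring
      _ ≤ 2500000 * (2 * β + β) := by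
          have : l ≤ β := by
            calc l ≤ J' * l := Nat.le_mul_of_pos_left _ (by omega)
              _ ≤ β := hJ2
          gcongr
      _ = 7500000 * β := by ring
  have hR : Rich S (2 * (2 ^ J') ^ 2) 36 := by
    have : 2 * (2 ^ J') ^ 2 = 2 ^ (2 * J' + 1) := by
      rw [← pow_mul, pow_succ]
      ring
    rw [this]
    exact hS3
  have hmain := uf_of_rich (S := S) (L := 2 ^ J') (k₀ := 36) (m := 16000000 * β) (h := l + 24)
    (j := 32000000 * l) (a := a) (b := b) hR (by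
      calc 2 = 2 ^ 1 := by norm_num
        _ ≤ 2 ^ J' := Nat.pow_le_pow_right (by norm_num) hJ'1) hS1 (by
      refine hS4.trans (Nat.pow_le_pow_right (by norm_num) ?_)
      calc 7500000 * β ≤ 8388608 * 2 ^ (l + 1) := by omega
        _ = 2 ^ (l + 24) := by
            rw [show l + 24 = 23 + (l + 1) by ring, pow_add 2 23 (l + 1)]
            norm_num) (by
      calc 2 ^ J' * b * S ^ 2 ≤ 2 ^ J' * 2 ^ (β + 1) * (2 ^ (7500000 * β)) ^ 2 := by
            gcongr
        _ = 2 ^ (J' + (β + 1) + 15000000 * β) := by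
            rw [← pow_mul, ← pow_add, ← pow_add]
            congr 1
            ring
        _ ≤ 2 ^ (16000000 * β) := Nat.pow_le_pow_right (by norm_num) (by omega)) (by
      rw [← pow_mul]
      apply Nat.pow_le_pow_right (by norm_num)
      calc 16000000 * β ≤ 16000000 * ((J' + 1) * l) := Nat.mul_le_mul_left _ hJ3.le
        _ ≤ 16000000 * ((2 * J') * l) := by gcongr; omega
        _ = J' * (32000000 * l) := by ring) ha hab
  obtain ⟨M, hM1, hM2, hM3⟩ := hmain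
  exact ⟨M, hM1.trans (by omega), hM2, hM3⟩

/-- the upper bound -/
theorem upper {a b : ℕ} (hb : 65556 ≤ Nat.log 2 (Nat.log 2 b)) (ha : 1 ≤ a) (hab : a < b) :
    ∃ s : Finset ℕ, s.card ≤ 2400000000 * Nat.log 2 (Nat.log 2 b) ∧ (∀ n ∈ s, 2 ≤ n) ∧
      ∑ n ∈ s, (1 : ℚ) / n = (a : ℚ) / b := by
  apply exists_finset_of_UF (upper_UF hb ha hab)
  rw [div_lt_one (by exact_mod_cast (by omega : 0 < b))]
  exact_mod_cast hab

/-- every fraction has a representation -/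
theorem exists_rep {a b : ℕ} (hab : a < b) :
    ∃ s : Finset ℕ, (∀ n ∈ s, 2 ≤ n) ∧ ∑ n ∈ s, (1 : ℚ) / n = (a : ℚ) / b := by
  have hUF : UF a ((a : ℚ) / b) := by
    refine ⟨Multiset.replicate a b, ?_, ?_, ?_⟩
    · rw [Multiset.card_replicate]
    · intro n hn
      rw [Multiset.eq_of_mem_replicate hn]
      omega
    · rw [Multiset.map_replicate, Multiset.sum_replicate, nsmul_eq_mul]
      ring
  obtain ⟨s, _, h2, h3⟩ := exists_finset_of_UF hUF (by
    rw [div_lt_one (by exact_mod_cast (by omega : 0 < b))]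
    exact_mod_cast hab)
  exact ⟨s, h2, h3⟩

end Vale.Agent.P012
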