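import Vale.Agent.P012.Avg

namespace Vale.Agent.P012

open Finset

theorem avg_le {w κ β μ : ℕ} (hw : 1 ≤ w) (hμ : 1 ≤ μ) (hβ : 128 * μ + 1 ≤ 2 ^ β)
    (hz : ∀ k, k < 2 ^ w * (128 * μ + 1) → pr k ≤ 2 ^ (w + κ))
    (hN : (80 * μ / w + 1) * (β + κ) + 3 ≤ μ) {d : ℕ} (hd1 : 2 ^ (64 * μ) ≤ d)
    (hd2 : d ≤ 2 ^ (80 * μ)) :
    (∑ r : Fin (128 * μ) → Fin (2 ^ w), coll (xf w r d) d) * 2 ^ (63 * μ)
      ≤ (2 ^ w) ^ (128 * μ) * 4 ^ (128 * μ) := by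
  set b := 128 * μ with hb
  set u := 80 * μ / w with hu
  set g := u + 1 with hg
  have hd0 : 0 < d := lt_of_lt_of_le (by positivity) hd1
  have hug : 80 * μ < w * g := by
    rw [hg, hu]
    exact Nat.lt_mul_div_succ _ (by omega)
  have hud : d < 2 ^ (w * (u + 1)) :=
    lt_of_le_of_lt hd2 (Nat.pow_lt_pow_right (by norm_num) hug)
  have hgb : g ≤ b := by
    have : u ≤ 80 * μ := Nat.div_le_self _ _
    omega
  have hs := sum_coll_le (w := w) (b := b) (κ := κ) (d := d) (g := g) (u := u) (by omega) hz hd0 hud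
  set Sg := ∑ r : Fin b → Fin (2 ^ w), coll (xf w r d) d with hSg
  set X := (2 ^ w) ^ b with hX
  have hXe : X = 2 ^ (w * b) := by rw [hX, ← pow_mul]
  -- bound of the fibre factor
  have hF : (2 ^ ((w + κ) * g) / d + 1) * (2 ^ w) ^ (b - g) * d ≤ 2 * 2 ^ (κ * g) * X := by
    have h1 : d ≤ 2 ^ ((w + κ) * g) := by
      refine hd2.trans (Nat.pow_le_pow_right (by norm_num) ?_)
      nlinarith
    have h2 : (2 ^ ((w + κ) * g) / d + 1) * d ≤ 2 * 2 ^ ((w + κ) * g) := by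
      have := Nat.div_mul_le_self (2 ^ ((w + κ) * g)) d
      rw [add_mul, one_mul]
      omega
    calc (2 ^ ((w + κ) * g) / d + 1) * (2 ^ w) ^ (b - g) * d
        = ((2 ^ ((w + κ) * g) / d + 1) * d) * (2 ^ w) ^ (b - g) := by ring
      _ ≤ (2 * 2 ^ ((w + κ) * g)) * (2 ^ w) ^ (b - g) := Nat.mul_le_mul_right _ h2
      _ = 2 * 2 ^ (κ * g) * X := by
          have : (2 ^ w) ^ b = (2 ^ w) ^ g * (2 ^ w) ^ (b - g) := by
            rw [← pow_add]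
            congr 1
            omega
          rw [hX, this, add_mul, pow_add, ← pow_mul]
          ring
  have hA1 : (b + 1) ^ (2 * g + u) ≤ 2 ^ (β * (3 * g)) := by
    calc (b + 1) ^ (2 * g + u) ≤ (2 ^ β) ^ (2 * g + u) := Nat.pow_le_pow_left hβ _
      _ = 2 ^ (β * (2 * g + u)) := by rw [pow_mul]
      _ ≤ 2 ^ (β * (3 * g)) := Nat.pow_le_pow_right (by norm_num) (Nat.mul_le_mul_left _ (by omega))
  have hA2 : b ^ g ≤ 2 ^ (β * g) := by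
    calc b ^ g ≤ (2 ^ β) ^ g := Nat.pow_le_pow_left (by omega) _
      _ = 2 ^ (β * g) := by rw [pow_mul]
  have hmain : Sg * d ≤ 2 ^ b * 2 ^ (β * (3 * g)) * X * d
      + 4 ^ b * (2 * 2 ^ (β * g) * (2 * 2 ^ (κ * g) * X)) := by
    calc Sg * d ≤ (2 ^ b * (b + 1) ^ (2 * g + u) * X
        + 4 ^ b * (2 * b ^ g * ((2 ^ ((w + κ) * g) / d + 1) * (2 ^ w) ^ (b - g)))) * d :=
          Nat.mul_le_mul_right _ hs
      _ = 2 ^ b * (b + 1) ^ (2 * g + u) * X * d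
        + 4 ^ b * (2 * b ^ g * ((2 ^ ((w + κ) * g) / d + 1) * (2 ^ w) ^ (b - g) * d)) := by ring
      _ ≤ _ := by gcongr
  have hgβ : β * g + κ * g + 3 ≤ μ := by nlinarith
  -- first term
  have hT1 : 2 * (2 ^ b * 2 ^ (β * (3 * g)) * 2 ^ (63 * μ)) ≤ 4 ^ b := by
    have h4 : (4 : ℕ) ^ b = 2 ^ (2 * b) := by
      rw [show (4 : ℕ) = 2 ^ 2 by norm_num, ← pow_mul]
    rw [h4]
    calc 2 * (2 ^ b * 2 ^ (β * (3 * g)) * 2 ^ (63 * μ)) = 2 ^ (1 + (b + β * (3 * g) + 63 * μ)) := by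
          rw [pow_add, pow_add, pow_add]; ring
      _ ≤ 2 ^ (2 * b) := Nat.pow_le_pow_right (by norm_num) (by nlinarith)
  have hT2 : 2 * (2 * 2 ^ (β * g) * (2 * 2 ^ (κ * g)) * 2 ^ (63 * μ)) ≤ d := by
    refine le_trans ?_ hd1
    calc 2 * (2 * 2 ^ (β * g) * (2 * 2 ^ (κ * g)) * 2 ^ (63 * μ))
        = 2 ^ (3 + (β * g + κ * g + 63 * μ)) := by
          rw [pow_add, pow_add, pow_add]; ring
      _ ≤ 2 ^ (64 * μ) := Nat.pow_le_pow_right (by norm_num) (by nlinarith)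
  have hfin : (2 * d) * (Sg * 2 ^ (63 * μ)) ≤ (2 * d) * (X * 4 ^ b) := by
    calc (2 * d) * (Sg * 2 ^ (63 * μ)) = 2 * (Sg * d) * 2 ^ (63 * μ) := by ring
      _ ≤ 2 * (2 ^ b * 2 ^ (β * (3 * g)) * X * d
      + 4 ^ b * (2 * 2 ^ (β * g) * (2 * 2 ^ (κ * g) * X))) * 2 ^ (63 * μ) := by gcongr
      _ = (2 * (2 ^ b * 2 ^ (β * (3 * g)) * 2 ^ (63 * μ))) * (X * d)
        + (2 * (2 * 2 ^ (β * g) * (2 * 2 ^ (κ * g)) * 2 ^ (63 * μ))) * (4 ^ b * X) := by ring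
      _ ≤ 4 ^ b * (X * d) + d * (4 ^ b * X) := by gcongr
      _ = (2 * d) * (X * 4 ^ b) := by ring
  exact Nat.le_of_mul_le_mul_left hfin (by omega)

/-- the bad data for the modulus `d` -/
noncomputable def Bad (w μ d : ℕ) : Finset (Fin (128 * μ) → Fin (2 ^ w)) :=
  univ.filter (fun r => 4 ^ (128 * μ) < coll (xf w r d) d * 2 ^ (61 * μ))

theorem bad_le {w κ β μ : ℕ} (hw : 1 ≤ w) (hμ : 1 ≤ μ) (hβ : 128 * μ + 1 ≤ 2 ^ β)
    (hz : ∀ k, k < 2 ^ w * (128 * μ + 1) → pr k ≤ 2 ^ (w + κ))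
    (hN : (80 * μ / w + 1) * (β + κ) + 3 ≤ μ) {d : ℕ} (hd1 : 2 ^ (64 * μ) ≤ d)
    (hd2 : d ≤ 2 ^ (80 * μ)) :
    (Bad w μ d).card * 2 ^ (2 * μ) ≤ (2 ^ w) ^ (128 * μ) := by
  have h := avg_le hw hμ hβ hz hN hd1 hd2
  have h1 : (Bad w μ d).card * 4 ^ (128 * μ)
      ≤ ∑ r : Fin (128 * μ) → Fin (2 ^ w), coll (xf w r d) d * 2 ^ (61 * μ) := by
    calc (Bad w μ d).card * 4 ^ (128 * μ) = ∑ r ∈ Bad w μ d, 4 ^ (128 * μ) := by
          rw [sum_const, smul_eq_mul]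
      _ ≤ ∑ r ∈ Bad w μ d, coll (xf w r d) d * 2 ^ (61 * μ) := by
          apply sum_le_sum
          intro r hr
          unfold Bad at hr
          rw [mem_filter] at hr
          exact hr.2.le
      _ ≤ _ := sum_le_sum_of_subset (subset_univ _)
  rw [← sum_mul] at h1
  have h2 : (4 : ℕ) ^ (128 * μ) * ((Bad w μ d).card * 2 ^ (2 * μ))
      ≤ 4 ^ (128 * μ) * (2 ^ w) ^ (128 * μ) := by
    calc (4 : ℕ) ^ (128 * μ) * ((Bad w μ d).card * 2 ^ (2 * μ))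
        = ((Bad w μ d).card * 4 ^ (128 * μ)) * 2 ^ (2 * μ) := by ring
      _ ≤ ((∑ r : Fin (128 * μ) → Fin (2 ^ w), coll (xf w r d) d) * 2 ^ (61 * μ)) * 2 ^ (2 * μ) :=
          Nat.mul_le_mul_right _ h1
      _ = (∑ r : Fin (128 * μ) → Fin (2 ^ w), coll (xf w r d) d) * 2 ^ (63 * μ) := by
          rw [mul_assoc, ← pow_add]
          congr 2
          ring
      _ ≤ (2 ^ w) ^ (128 * μ) * 4 ^ (128 * μ) := h
      _ = _ := by ring
  exact Nat.le_of_mul_le_mul_left h2 (by positivity)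

/-- `41` blocks such that every `d` is good for one of them -/
theorem exists_blocks {w κ β μ : ℕ} (hw : 1 ≤ w) (hμ : 1 ≤ μ) (hβ : 128 * μ + 1 ≤ 2 ^ β)
    (hz : ∀ k, k < 2 ^ w * (128 * μ + 1) → pr k ≤ 2 ^ (w + κ))
    (hN : (80 * μ / w + 1) * (β + κ) + 3 ≤ μ) :
    ∃ R : Fin 41 → (Fin (128 * μ) → Fin (2 ^ w)), ∀ d, 2 ^ (64 * μ) < d → d ≤ 2 ^ (80 * μ) →
      ∃ j, coll (xf w (R j) d) d * 2 ^ (61 * μ) ≤ 4 ^ (128 * μ) := by
  classical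
  by_contra hcon
  push Not at hcon
  set X := (2 ^ w) ^ (128 * μ) with hX
  have hX0 : 0 < X := by positivity
  have hcover : (univ : Finset (Fin 41 → (Fin (128 * μ) → Fin (2 ^ w))))
      ⊆ (Finset.Ioc (2 ^ (64 * μ)) (2 ^ (80 * μ))).biUnion
        (fun d => Fintype.piFinset (fun _ : Fin 41 => Bad w μ d)) := by
    intro R _
    obtain ⟨d, hd1, hd2, hj⟩ := hcon R
    rw [mem_biUnion]
    refine ⟨d, mem_Ioc.mpr ⟨hd1, hd2⟩, ?_⟩
    rw [Fintype.mem_piFinset]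
    intro j
    unfold Bad
    rw [mem_filter]
    exact ⟨mem_univ _, hj j⟩
  have hc := (card_le_card hcover).trans card_biUnion_le
  have hcu : (univ : Finset (Fin 41 → (Fin (128 * μ) → Fin (2 ^ w)))).card = X ^ 41 := by
    rw [card_univ, Fintype.card_fun, Fintype.card_fun, Fintype.card_fin, Fintype.card_fin,
      Fintype.card_fin]
  rw [hcu] at hc
  have hb : ∀ d ∈ Finset.Ioc (2 ^ (64 * μ)) (2 ^ (80 * μ)),
      (Fintype.piFinset (fun _ : Fin 41 => Bad w μ d)).card * 2 ^ (82 * μ) ≤ X ^ 41 := by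
    intro d hd
    rw [mem_Ioc] at hd
    have h1 := bad_le hw hμ hβ hz hN hd.1.le hd.2
    rw [Fintype.card_piFinset, prod_const, card_univ, Fintype.card_fin]
    calc (Bad w μ d).card ^ 41 * 2 ^ (82 * μ) = ((Bad w μ d).card * 2 ^ (2 * μ)) ^ 41 := by
          rw [mul_pow, ← pow_mul]
          congr 2
          ring
      _ ≤ X ^ 41 := Nat.pow_le_pow_left h1 _
  have h2 : X ^ 41 * 2 ^ (82 * μ) ≤ 2 ^ (80 * μ) * X ^ 41 := by
    calc X ^ 41 * 2 ^ (82 * μ)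
        ≤ (∑ d ∈ Finset.Ioc (2 ^ (64 * μ)) (2 ^ (80 * μ)),
            (Fintype.piFinset (fun _ : Fin 41 => Bad w μ d)).card) * 2 ^ (82 * μ) :=
          Nat.mul_le_mul_right _ hc
      _ = ∑ d ∈ Finset.Ioc (2 ^ (64 * μ)) (2 ^ (80 * μ)),
            (Fintype.piFinset (fun _ : Fin 41 => Bad w μ d)).card * 2 ^ (82 * μ) := by
          rw [sum_mul]
      _ ≤ ∑ d ∈ Finset.Ioc (2 ^ (64 * μ)) (2 ^ (80 * μ)), X ^ 41 := sum_le_sum hb
      _ = (2 ^ (80 * μ) - 2 ^ (64 * μ)) * X ^ 41 := by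
          rw [sum_const, smul_eq_mul, Nat.card_Ioc]
      _ ≤ _ := Nat.mul_le_mul_right _ (Nat.sub_le _ _)
  have h3 : (2 : ℕ) ^ (80 * μ) < 2 ^ (82 * μ) := Nat.pow_lt_pow_right (by norm_num) (by omega)
  have h4 : 2 ^ (80 * μ) * X ^ 41 < X ^ 41 * 2 ^ (82 * μ) := by
    rw [mul_comm]
    exact Nat.mul_lt_mul_of_pos_left h3 (by positivity)
  omega

end Vale.Agent.P012
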