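import Vale.Agent.P012.Markov

namespace Vale.Agent.P012

open Finset

theorem coll_kill_le {w b c d : ℕ} (r : Fin b → Fin (2 ^ w)) (hdc : d ∣ c) :
    coll (xf w r c) d ≤ coll (xf w r d) d * 2 ^ (univ.filter (fun i => P w r i ∣ c)).card := by
  classical
  set K := univ.filter (fun i => P w r i ∣ c ∧ ¬ P w r i ∣ d) with hK
  have hKc : K.card ≤ (univ.filter (fun i => P w r i ∣ c)).card := by
    apply card_le_card
    intro i hi
    rw [hK, mem_filter] at hi
    rw [mem_filter]
    exact ⟨mem_univ _, hi.2.1⟩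
  have hx : ∀ A : Finset (Fin b), xf w r c A = xf w r d (A \ K) := by
    intro A
    unfold xf
    congr 1
    ext i
    simp only [mem_filter, mem_sdiff, hK, mem_univ, true_and]
    constructor
    · rintro ⟨h1, h2⟩
      exact ⟨⟨h1, fun h => h2 h.1⟩, fun h => h2 (h.trans hdc)⟩
    · rintro ⟨⟨h1, h2⟩, h3⟩
      exact ⟨h1, fun h => h2 ⟨h, h3⟩⟩
  have hsplit : ∀ A : Finset (Fin b), xf w r d A = xf w r d (A \ K) * xf w r d (A ∩ K) := by
    intro A
    rw [← xf_union r d (disjoint_sdiff_inter A K), sdiff_union_inter]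
  have h1 : coll (xf w r c) d
      ≤ ((univ.filter (fun p : Finset (Fin b) × Finset (Fin b) =>
          xf w r d p.1 ≡ xf w r d p.2 [MOD d])) ×ˢ K.powerset).card := by
    unfold coll
    apply card_le_card_of_injOn (fun p => ((p.1, (p.2 \ K) ∪ (p.1 ∩ K)), p.2 ∩ K))
    · rintro ⟨A, A'⟩ hp
      rw [mem_coe, mem_filter] at hp
      rw [mem_coe, mem_product, mem_filter, mem_powerset]
      refine ⟨⟨mem_univ _, ?_⟩, inter_subset_right⟩
      have h2 := hp.2
      simp only at h2 ⊢
      rw [hx, hx] at h2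
      have hdisj : Disjoint (A' \ K) (A ∩ K) := by
        rw [Finset.disjoint_left]
        intro i hi hi'
        exact (mem_sdiff.mp hi).2 (mem_inter.mp hi').2
      rw [xf_union r d hdisj, hsplit A]
      exact h2.mul_right _
    · rintro ⟨A, A'⟩ _ ⟨B, B'⟩ _ h
      simp only [Prod.mk.injEq] at h
      obtain ⟨⟨h1, h2⟩, h3⟩ := h
      subst h1
      have h4 : A' = B' := by
        ext i
        by_cases hi : i ∈ K
        · have := Finset.ext_iff.mp h3 i
          simp only [mem_inter, hi, and_true] at this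
          exact this
        · have := Finset.ext_iff.mp h2 i
          simp only [mem_union, mem_sdiff, mem_inter, hi, not_false_eq_true, and_true, and_false,
            or_false] at this
          exact this
      rw [h4]
  refine h1.trans ?_
  rw [card_product, card_powerset]
  apply Nat.mul_le_mul_left
  exact Nat.pow_le_pow_right (by norm_num) hKc

theorem scale {w κ β μ : ℕ} (hw : 1 ≤ w) (hμ : 1 ≤ μ) (hβ : 128 * μ + 1 ≤ 2 ^ β)
    (hz : ∀ k, k < 2 ^ w * (128 * μ + 1) → pr k ≤ 2 ^ (w + κ))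
    (hN : (80 * μ / w + 1) * (β + κ) + 3 ≤ μ) {C : Set ℕ} (hC : ∀ c ∈ C, 0 < c)
    (hkill : ∀ c ∈ C, ∀ r : Fin (128 * μ) → Fin (2 ^ w),
      (univ.filter (fun i => P w r i ∣ c)).card ≤ μ) :
    ∃ S : ℕ, 0 < S ∧ S ≤ 2 ^ (5248 * μ * (w + κ)) ∧
      Good C S (Set.Ioc (2 ^ (64 * μ)) (2 ^ (80 * μ))) := by
  obtain ⟨R, hR⟩ := exists_blocks hw hμ hβ hz hN
  refine ⟨∏ j : Fin 41, ∏ i : Fin (128 * μ), P w (R j) i, ?_, ?_, ?_⟩
  · exact prod_pos (fun j _ => prod_pos (fun i _ => (P_prime w (R j) i).pos))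
  · calc ∏ j : Fin 41, ∏ i : Fin (128 * μ), P w (R j) i
        ≤ ∏ j : Fin 41, ∏ i : Fin (128 * μ), 2 ^ (w + κ) :=
          prod_le_prod' (fun j _ => prod_le_prod' (fun i _ => P_le hz (R j) i))
      _ = 2 ^ (5248 * μ * (w + κ)) := by
          rw [prod_const, prod_const, card_univ, card_univ, Fintype.card_fin, Fintype.card_fin,
            ← pow_mul, ← pow_mul]
          congr 1
          ring
  · have hgood := good_prod hC (univ : Finset (Fin 41))
      (fun j => ∏ i : Fin (128 * μ), P w (R j) i)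
      (fun j => {d | d ≤ 2 ^ (80 * μ) ∧ coll (xf w (R j) d) d * 2 ^ (61 * μ) ≤ 4 ^ (128 * μ)})
      (by
        intro j _ c hc
        refine ⟨Finset (Fin (128 * μ)), inferInstance, ⟨∅⟩, xf w (R j) c,
          fun A => xf_dvd w (R j) c A, fun A => xf_coprime w (R j) c A, ?_⟩
        rintro d ⟨hd1, hd2⟩ hdc
        have h1 := coll_kill_le (R j) hdc
        have h2 : coll (xf w (R j) c) d * 2 ^ (60 * μ) ≤ 4 ^ (128 * μ) := by
          calc coll (xf w (R j) c) d * 2 ^ (60 * μ)
              ≤ (coll (xf w (R j) d) d * 2 ^ μ) * 2 ^ (60 * μ) := by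
                apply Nat.mul_le_mul_right
                refine h1.trans ?_
                apply Nat.mul_le_mul_left
                exact Nat.pow_le_pow_right (by norm_num) (hkill c hc (R j))
            _ = coll (xf w (R j) d) d * 2 ^ (61 * μ) := by
                rw [mul_assoc, ← pow_add]
                congr 2
                ring
            _ ≤ _ := hd2
        rw [Fintype.card_finset, Fintype.card_fin]
        calc d ^ 3 * coll (xf w (R j) c) d ^ 4
            ≤ (2 ^ (80 * μ)) ^ 3 * coll (xf w (R j) c) d ^ 4 := by gcongr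
          _ = (coll (xf w (R j) c) d * 2 ^ (60 * μ)) ^ 4 := by
              rw [mul_pow, ← pow_mul, ← pow_mul, mul_comm]
              congr 2
              ring
          _ ≤ (4 ^ (128 * μ)) ^ 4 := Nat.pow_le_pow_left h2 4
          _ = (2 ^ (128 * μ)) ^ 8 := by
              rw [show (4 : ℕ) = 2 ^ 2 by norm_num, ← pow_mul, ← pow_mul, ← pow_mul]
              congr 1
              ring)
    apply good_mono hgood
    intro d hd
    obtain ⟨j, hj⟩ := hR d hd.1 hd.2
    simp only [Set.mem_iUnion]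
    exact ⟨j, mem_univ j, hd.2, hj⟩

end Vale.Agent.P012
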